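import Vale.Agent.P343.ScatRun

/-!
# P343, module M4a: depth first search permutations of cells, and the network they form
-/

namespace Vale.Agent.P343

open Scat

/-- Ports on one boundary: a state and a direction (`true` = moving right). -/
abbrev Port (Q : Type) : Type := Q × Bool

/-- The local function of a cell: input `(q, true)` enters from the left, `(q, false)` enters from the right;
output `(q, true)` leaves to the right, `(q, false)` leaves to the left. -/
abbrev CellFun (Q : Type) : Type := Port Q → Option (Port Q)

/-- Global vertices: number of the boundary, state, direction. Boundary `b` lies between cells `b - 1` and `b`. -/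
abbrev Vtx (Q : Type) : Type := ℕ × Port Q

/-- the vertex in which an output of cell `i` results -/
def lift {Q : Type} (i : ℕ) (o : Port Q) : Vtx Q := (if o.2 then i + 1 else i, o)

/-- the cell which a vertex enters (`none`: no cell) -/
def cellOf {Q : Type} (v : Vtx Q) : Option ℕ := if v.2.2 then some v.1 else if v.1 = 0 then none else some (v.1 - 1)

/-- the global partial function on vertices -/
def gfun {Q : Type} (gs : List (CellFun Q)) (v : Vtx Q) : Option (Vtx Q) :=
  match cellOf v with
  | none => none
  | some i => match gs[i]? with
    | none => none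
    | some g => (g v.2).map (lift i)

/-- `v` leads to `u` -/
def Leads {Q : Type} (gs : List (CellFun Q)) : Vtx Q → Vtx Q → Prop :=
  Relation.ReflTransGen (fun v u => gfun gs v = some u)

/-! ### Cyclic permutations of the classes of a partial function -/

theorem exists_rho {X Y : Type} [Finite X] (P : X → Option Y) :
    ∃ ρ : Equiv.Perm X, (∀ x, P (ρ x) = P x) ∧ (∀ x, P x = none → ρ x = x) ∧
      ∀ x y, P x = P y → P x ≠ none → ∃ n : ℕ, ρ^[n] x = y := by
  classical
  have : Fintype X := Fintype.ofFinite X
  choose τ hτ hτs using fun u : Y =>
    Finset.exists_cycleOn (Finset.univ.filter (fun x : X => P x = some u))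
  have hmem : ∀ (u : Y) (x : X), P x = some u → P (τ u x) = some u := by
    intro u x hx
    have h1 : x ∈ (Finset.univ.filter (fun x : X => P x = some u) : Finset X) := by simp [hx]
    have h2 := (hτ u).1.mapsTo (Finset.mem_coe.2 h1)
    simpa using h2
  let r : X → X := fun x => match P x with
    | none => x
    | some u => τ u x
  have hr1 : ∀ x, P x = none → r x = x := by
    intro x hx
    show (match P x with
      | none => x
      | some u => τ u x) = x
    rw [hx]
  have hr2 : ∀ x u, P x = some u → r x = τ u x := by
    intro x u hx
    show (match P x with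
      | none => x
      | some u => τ u x) = τ u x
    rw [hx]
  have hrP : ∀ x, P (r x) = P x := by
    intro x
    cases hx : P x with
    | none => rw [hr1 x hx, hx]
    | some u => rw [hr2 x u hx, hmem u x hx]
  have hinj : Function.Injective r := by
    intro x y hxy
    have h1 : P x = P y := by rw [← hrP x, ← hrP y, hxy]
    cases hx : P x with
    | none =>
      rw [hr1 x hx, hr1 y (by rw [← h1, hx])] at hxy
      exact hxy
    | some u =>
      rw [hr2 x u hx, hr2 y u (by rw [← h1, hx])] at hxy
      exact (τ u).injective hxy
  refine ⟨Equiv.ofBijective r (Finite.injective_iff_bijective.1 hinj), hrP, hr1, ?_⟩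
  intro x y hxy hx
  obtain ⟨u, hu⟩ := Option.ne_none_iff_exists'.1 hx
  have hmx : x ∈ (Finset.univ.filter (fun x : X => P x = some u) : Finset X) := by simp [hu]
  have hmy : y ∈ (Finset.univ.filter (fun x : X => P x = some u) : Finset X) := by
    simp [← hxy, hu]
  obtain ⟨n, -, hn⟩ := (hτ u).exists_pow_eq hmx hmy
  refine ⟨n, ?_⟩
  have key : ∀ n : ℕ, P (r^[n] x) = some u ∧ r^[n] x = ((τ u) ^ n) x := by
    intro n
    induction n with
    | zero => exact ⟨hu, rfl⟩
    | succ n ih =>
      rw [Function.iterate_succ_apply', hrP]
      refine ⟨ih.1, ?_⟩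
      rw [hr2 _ u ih.1, ih.2, pow_succ', Equiv.Perm.mul_apply]
  show r^[n] x = y
  rw [(key n).2]
  exact hn

/-- class of a dart entering a cell -/
def ccls {Q : Type} (g : CellFun Q) : Port Q ⊕ Port Q → Option (Port Q)
  | Sum.inl p => if p.2 then g p else some p
  | Sum.inr p => if p.2 then some p else g p

/-- the cyclic permutation of the darts entering a cell -/
noncomputable def crho {Q : Type} [Finite Q] (g : CellFun Q) : Equiv.Perm (Port Q ⊕ Port Q) :=
  (exists_rho (ccls g)).choose

theorem crho_cls {Q : Type} [Finite Q] (g : CellFun Q) (x : Port Q ⊕ Port Q) :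
    ccls g (crho g x) = ccls g x := (exists_rho (ccls g)).choose_spec.1 x

theorem crho_none {Q : Type} [Finite Q] (g : CellFun Q) (x : Port Q ⊕ Port Q)
    (h : ccls g x = none) : crho g x = x := (exists_rho (ccls g)).choose_spec.2.1 x h

theorem crho_cyc {Q : Type} [Finite Q] (g : CellFun Q) (x y : Port Q ⊕ Port Q)
    (h : ccls g x = ccls g y) (h' : ccls g x ≠ none) : ∃ n : ℕ, (crho g)^[n] x = y :=
  (exists_rho (ccls g)).choose_spec.2.2 x y h h'

/-- the scattering bijection of a cell -/
noncomputable def cellScat {Q : Type} [Finite Q] (g : CellFun Q) : Scat (Port Q) (Port Q) :=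
  ⟨(crho g).trans (Equiv.sumComm _ _)⟩

theorem cellScat_perm {Q : Type} [Finite Q] (g : CellFun Q) (x : Port Q ⊕ Port Q) :
    (cellScat g).perm x = (crho g x).swap := rfl

section Core


variable {V : Type} (f : V → Option V)

/-- the class of a dart: the darts `(v, false)` = (v, enter), `(v, true)` = (v, leave) -/
def dcls (x : V × Bool) : Option V := if x.2 then f x.1 else some x.1

/-- one step relation -/
def Stp (v u : V) : Prop := f v = some u

theorem not_cyc {t v : V} (ht : f t = none) (hv : Relation.ReflTransGen (Stp f) v t) :
    ¬ Relation.TransGen (Stp f) v v := by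
  induction hv using Relation.ReflTransGen.head_induction_on with
  | refl =>
    intro h
    obtain ⟨b, hb, -⟩ := Relation.TransGen.head'_iff.1 h
    rw [Stp, ht] at hb
    cases hb
  | @head a b hab hbt ih =>
    intro h
    apply ih
    obtain ⟨b', hb', hb''⟩ := Relation.TransGen.head'_iff.1 h
    have : b' = b := by
      rw [Stp] at hab hb'
      rw [hab] at hb'
      exact (Option.some.inj hb').symm
    rw [this] at hb''
    exact Relation.TransGen.tail' hb'' hab

/-- two children of `u` reached from the same vertex are equal -/
theorem child_unique {t s u c c' : V} (ht : f t = none) (hu : Relation.ReflTransGen (Stp f) u t)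
    (hc : Stp f c u) (hc' : Stp f c' u) (h : Relation.ReflTransGen (Stp f) s c)
    (h' : Relation.ReflTransGen (Stp f) s c') : c = c' := by
  have hdet : ∀ a b b' : V, Stp f a b → Stp f a b' → b = b' := by
    intro a b b' h1 h2
    rw [Stp] at h1 h2
    rw [h1] at h2
    exact Option.some.inj h2
  -- comparability
  have hcomp : Relation.ReflTransGen (Stp f) c c' ∨ Relation.ReflTransGen (Stp f) c' c := by
    induction h using Relation.ReflTransGen.head_induction_on with
    | refl => exact Or.inl h'
    | @head a b hab hbt ih =>
      rcases Relation.ReflTransGen.cases_head h' with h1 | ⟨d, h1, h2⟩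
      · right
        rw [← h1]
        exact Relation.ReflTransGen.head hab hbt
      · rw [hdet _ _ _ h1 hab] at h2
        exact ih h2
  have key : ∀ c c' : V, Stp f c u → Stp f c' u → Relation.ReflTransGen (Stp f) c c' → c = c' := by
    intro c c' h1 h2 h3
    rcases Relation.ReflTransGen.cases_head h3 with h4 | ⟨d, h4, h5⟩
    · exact h4
    · exfalso
      rw [hdet _ _ _ h4 h1] at h5
      exact not_cyc f ht hu (Relation.TransGen.tail' h5 h2)
  rcases hcomp with h1 | h1
  · exact key c c' hc hc' h1
  · exact (key c' c hc' hc h1).symm

theorem dfs_core {s₀ t₀ : V} (ht : f t₀ = none)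
    (hfin : {v | Relation.ReflTransGen (Stp f) v t₀}.Finite)
    (ρ : V × Bool → V × Bool) (Run : V × Bool → Prop)
    (h1 : ∀ u, Relation.ReflTransGen (Stp f) u t₀ → u ≠ s₀ → ∀ x, dcls f x = some u →
      dcls f (ρ x) = some u)
    (h2 : ∀ u, Relation.ReflTransGen (Stp f) u t₀ → u ≠ s₀ → ∀ x y, dcls f x = some u →
      dcls f y = some u → ∃ n : ℕ, ρ^[n] x = y)
    (hstep : ∀ u, Relation.ReflTransGen (Stp f) u t₀ → u ≠ s₀ → ∀ x, dcls f x = some u →
      Run ((ρ x).1, !(ρ x).2) → Run x)
    (h0 : Run (s₀, false)) (hs : Relation.ReflTransGen (Stp f) s₀ t₀) : Run (t₀, false) := by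
  classical
  -- number of descendants
  let D : V → Set V := fun v => {w | Relation.ReflTransGen (Stp f) w v}
  have hDfin : ∀ v, Relation.ReflTransGen (Stp f) v t₀ → (D v).Finite := fun v hv =>
    hfin.subset fun w hw => Relation.ReflTransGen.trans hw hv
  have hDlt : ∀ v c, Relation.ReflTransGen (Stp f) v t₀ → Stp f c v →
      (D c).ncard < (D v).ncard := by
    intro v c hv hc
    apply Set.ncard_lt_ncard _ (hDfin v hv)
    refine ⟨fun w hw => Relation.ReflTransGen.tail hw hc, fun hsub => ?_⟩
    have : v ∈ D c := hsub Relation.ReflTransGen.refl
    exact not_cyc f ht hv (Relation.TransGen.tail' this hc)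
  have clsx : ∀ v, dcls f (v, false) = some v := fun v => rfl
  have main : ∀ n : ℕ, ∀ v, Relation.ReflTransGen (Stp f) v t₀ → (D v).ncard = n →
      ((¬ Relation.ReflTransGen (Stp f) s₀ v → Run (v, true) → Run (v, false)) ∧
        (Relation.ReflTransGen (Stp f) s₀ v → Run (v, false))) := by
    intro n
    induction n using Nat.strong_induction_on with
    | _ n ih =>
      intro v hv hn
      have ihc : ∀ c, Stp f c v →
          ((¬ Relation.ReflTransGen (Stp f) s₀ c → Run (c, true) → Run (c, false)) ∧
          (Relation.ReflTransGen (Stp f) s₀ c → Run (c, false))) := by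
        intro c hc
        exact ih _ (by rw [← hn]; exact hDlt v c hv hc) c (Relation.ReflTransGen.head hc hv) rfl
      constructor
      · intro hns hrun
        have hvs : v ≠ s₀ := by
          rintro rfl
          exact hns Relation.ReflTransGen.refl
        have claim : ∀ m : ℕ, ∀ x, dcls f x = some v → ρ^[m + 1] x = (v, false) → Run x := by
          intro m
          induction m with
          | zero =>
            intro x hx hm
            have hm' : ρ x = (v, false) := hm
            apply hstep v hv hvs x hx
            rw [hm']
            exact hrun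
          | succ m ihm =>
            intro x hx hm
            have hx' : dcls f (ρ x) = some v := h1 v hv hvs x hx
            have hr : Run (ρ x) := ihm (ρ x) hx' (by rwa [Function.iterate_succ_apply] at hm)
            apply hstep v hv hvs x hx
            rcases hxe : ρ x with ⟨c, b⟩
            rw [hxe] at hx' hr
            cases b with
            | true =>
              have hc : Stp f c v := hx'
              exact (ihc c hc).1 (fun h => hns (Relation.ReflTransGen.tail h hc)) hr
            | false =>
              have hc : c = v := Option.some.inj hx'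
              rw [hc]
              exact hrun
        obtain ⟨m, hm⟩ := h2 v hv hvs (ρ (v, false)) (v, false) (h1 v hv hvs _ (clsx v)) (clsx v)
        exact claim m (v, false) (clsx v) (by rwa [Function.iterate_succ_apply])
      · intro hsv
        by_cases hvs : v = s₀
        · rw [hvs]
          exact h0
        · obtain ⟨c, hsc, hcv⟩ : ∃ c, Relation.ReflTransGen (Stp f) s₀ c ∧ Stp f c v := by
            rcases Relation.ReflTransGen.cases_tail hsv with h | ⟨c, h3, h4⟩
            · exact absurd h hvs
            · exact ⟨c, h3, h4⟩
          have hex : ∃ m : ℕ, ρ^[m] (v, false) = (c, true) :=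
            h2 v hv hvs (v, false) (c, true) (clsx v) hcv
          let m := Nat.find hex
          have hm : ρ^[m] (v, false) = (c, true) := Nat.find_spec hex
          have hmin : ∀ i, i < m → ρ^[i] (v, false) ≠ (c, true) := fun i hi => Nat.find_min hex hi
          have hm0 : m ≠ 0 := by
            intro h
            rw [h] at hm
            simp at hm
          have hcls : ∀ i : ℕ, dcls f (ρ^[i] (v, false)) = some v := by
            intro i
            induction i with
            | zero => exact clsx v
            | succ i ihi =>
              rw [Function.iterate_succ_apply']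
              exact h1 v hv hvs _ ihi
          have hne : ∀ i, 0 < i → i < m → ρ^[i] (v, false) ≠ (v, false) := by
            intro i hi0 hi h
            apply hmin (m - i) (by omega)
            have e : m = (m - i) + i := by omega
            rw [e, Function.iterate_add_apply, h] at hm
            exact hm
          have claim : ∀ k i : ℕ, i + k + 1 = m → Run (ρ^[i] (v, false)) := by
            intro k
            induction k with
            | zero =>
              intro i hi
              apply hstep v hv hvs _ (hcls i)
              rw [← Function.iterate_succ_apply' ρ, show i.succ = m by omega, hm]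
              exact (ihc c hcv).2 hsc
            | succ k ihk =>
              intro i hi
              apply hstep v hv hvs _ (hcls i)
              rw [← Function.iterate_succ_apply' ρ]
              have hr := ihk (i + 1) (by omega)
              have hx' := hcls (i + 1)
              have hn1 := hne (i + 1) (by omega) (by omega)
              have hn2 := hmin (i + 1) (by omega)
              rcases hxe : ρ^[i + 1] (v, false) with ⟨c', b⟩
              rw [hxe] at hx' hr hn1 hn2
              cases b with
              | true =>
                have hc' : Stp f c' v := hx'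
                refine (ihc c' hc').1 (fun h => hn2 ?_) hr
                rw [child_unique f ht hv hc' hcv h hsc]
              | false =>
                have hc' : c' = v := Option.some.inj hx'
                exact absurd (by rw [hc']) hn1
          have := claim (m - 1) 0 (by omega)
          exact this
  exact (main _ t₀ Relation.ReflTransGen.refl rfl).2 hs

end Core

section Net

variable {Q : Type}

/-- the global dart which enters cell `i` at `x` -/
def dart (i : ℕ) : Port Q ⊕ Port Q → Vtx Q × Bool
  | Sum.inl p => ((i, p), p.2)
  | Sum.inr p => ((i + 1, p), !p.2)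

/-- the cell entered by a dart -/
def node (d : Vtx Q × Bool) : Option (ℕ × (Port Q ⊕ Port Q)) :=
  if d.1.2.2 = d.2 then some (d.1.1, Sum.inl d.1.2)
  else if d.1.1 = 0 then none else some (d.1.1 - 1, Sum.inr d.1.2)

theorem node_dart (i : ℕ) (x : Port Q ⊕ Port Q) : node (dart i x) = some (i, x) := by
  rcases x with p | p
  · simp [node, dart]
  · simp [node, dart]

theorem dcls_dart {gs : List (CellFun Q)} {i : ℕ} {g : CellFun Q} (hg : gs[i]? = some g)
    (x : Port Q ⊕ Port Q) : dcls (gfun gs) (dart i x) = (ccls g x).map (lift i) := by
  rcases x with ⟨q, b⟩ | ⟨q, b⟩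
  · cases b
    · simp [dcls, dart, ccls, lift]
    · simp [dcls, dart, ccls, gfun, cellOf, hg]
  · cases b
    · simp [dcls, dart, ccls, gfun, cellOf, hg]
    · simp [dcls, dart, ccls, lift]

theorem gfun_some {gs : List (CellFun Q)} {v u : Vtx Q} (h : gfun gs v = some u) :
    ∃ (i : ℕ) (g : CellFun Q), cellOf v = some i ∧ gs[i]? = some g ∧ (g v.2).map (lift i) = some u := by
  unfold gfun at h
  cases hc : cellOf v with
  | none => rw [hc] at h; cases h
  | some i =>
    rw [hc] at h
    cases hg : gs[i]? with
    | none => simp only [hg] at h; cases h
    | some g => simp only [hg] at h; exact ⟨i, g, rfl, hg, h⟩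

theorem lift_inj {i j : ℕ} {o o' : Port Q} (h : lift i o = lift j o') : i = j ∧ o = o' := by
  have h2 : o = o' := congrArg Prod.snd h
  refine ⟨?_, h2⟩
  have h1 : (if o.2 then i + 1 else i) = if o'.2 then j + 1 else j := congrArg Prod.fst h
  rw [← h2] at h1
  cases hb : o.2 <;> simp [hb] at h1 <;> exact h1

theorem leads_head {gs : List (CellFun Q)} {v t : Vtx Q} (h : Leads gs v t) :
    v = t ∨ ∃ u, gfun gs v = some u ∧ Leads gs u t := by
  rcases Relation.ReflTransGen.cases_head h with h | ⟨u, h1, h2⟩
  · exact Or.inl h
  · exact Or.inr ⟨u, h1, h2⟩

theorem gfun_end (gs : List (CellFun Q)) (qt : Q) : gfun gs (gs.length, qt, true) = none := by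
  simp [gfun, cellOf]

/-- the vertex of an entering dart leads to the end iff the vertex of its class does -/
theorem leads_cls {gs : List (CellFun Q)} {t : Vtx Q} (ht : gfun gs t = none) {i : ℕ}
    {g : CellFun Q} (hg : gs[i]? = some g) {x : Port Q ⊕ Port Q} {o : Port Q}
    (ho : ccls g x = some o) : Leads gs (dart i x).1 t ↔ Leads gs (lift i o) t := by
  have h := dcls_dart hg x
  rw [ho, Option.map_some] at h
  unfold dcls at h
  split_ifs at h with hb
  · constructor
    · intro h1
      rcases leads_head h1 with h2 | ⟨u, h2, h3⟩
      · rw [h2, ht] at h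
        cases h
      · rw [h] at h2
        rw [Option.some.inj h2]
        exact h3
    · intro h1
      exact Relation.ReflTransGen.head h h1
  · rw [Option.some.inj h]

theorem leads_crho [Finite Q] {gs : List (CellFun Q)} {t : Vtx Q} (ht : gfun gs t = none) {i : ℕ}
    {g : CellFun Q} (hg : gs[i]? = some g) (x : Port Q ⊕ Port Q)
    (h : Leads gs (dart i x).1 t) : Leads gs (dart i (crho g x)).1 t := by
  cases ho : ccls g x with
  | none => rw [crho_none g x ho]; exact h
  | some o =>
    rw [leads_cls ht hg (by rw [crho_cls, ho])]
    rwa [leads_cls ht hg ho] at h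

theorem run_leads [Finite Q] {gs : List (CellFun Q)} {t : Vtx Q} (ht : gfun gs t = none) {qi : Q}
    {i : ℕ} {x y : Port Q ⊕ Port Q} (h : RunL (gs.map cellScat) i x y)
    (hx : Leads gs (dart i x).1 t) (hy : y = Sum.inr (qi, true)) :
    Leads gs (0, qi, true) t := by
  have get : ∀ {i : ℕ} {f : Scat (Port Q) (Port Q)}, (gs.map cellScat)[i]? = some f →
      ∃ g, gs[i]? = some g ∧ f = cellScat g := by
    intro i f hf
    rw [List.getElem?_map] at hf
    cases hg : gs[i]? with
    | none => rw [hg] at hf; cases hf
    | some g => rw [hg] at hf; exact ⟨g, rfl, (Option.some.inj hf).symm⟩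
  induction h with
  | @out_left x l f hf h =>
    obtain ⟨g, hg, rfl⟩ := get hf
    have h1 := leads_crho ht hg x hx
    rw [cellScat_perm] at h
    have h2 : crho g x = Sum.inl l := by
      have := congrArg Sum.swap h
      rwa [Sum.swap_swap] at this
    rw [h2] at h1
    rw [Sum.inr.inj hy] at h1
    exact h1
  | @step_left i x y l f hf h h' ih =>
    obtain ⟨g, hg, rfl⟩ := get hf
    have h1 := leads_crho ht hg x hx
    rw [cellScat_perm] at h
    have h2 : crho g x = Sum.inl l := by
      have := congrArg Sum.swap h
      rwa [Sum.swap_swap] at this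
    rw [h2] at h1
    exact ih h1 hy
  | @step_right i x y r f hf hi h h' ih =>
    obtain ⟨g, hg, rfl⟩ := get hf
    have h1 := leads_crho ht hg x hx
    rw [cellScat_perm] at h
    have h2 : crho g x = Sum.inr r := by
      have := congrArg Sum.swap h
      rwa [Sum.swap_swap] at this
    rw [h2] at h1
    exact ih h1 hy
  | @out_right i x r f hf hi h => cases hy

/-- a vertex leading to the end lies at a boundary `≤ N` -/
theorem leads_le {gs : List (CellFun Q)} {qt : Q} {v : Vtx Q}
    (h : Leads gs v (gs.length, qt, true)) : v.1 ≤ gs.length := by
  rcases leads_head h with h1 | ⟨u, h1, -⟩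
  · rw [h1]
  · obtain ⟨i, g, h2, h3, -⟩ := gfun_some h1
    have h4 : i < gs.length := by
      by_contra hcon
      rw [List.getElem?_eq_none (not_lt.1 hcon)] at h3
      cases h3
    unfold cellOf at h2
    split_ifs at h2 with hb hb'
    · have := Option.some.inj h2
      omega
    · have := Option.some.inj h2
      omega

/-- every dart in the class of a vertex leading to the end enters a cell -/
theorem exists_node {gs : List (CellFun Q)} (hne : gs ≠ []) {qi qt : Q}
    (h0 : ∀ g, gs[0]? = some g → ∀ q, q ≠ qi → g (q, true) = none)
    (h1 : ∀ g, gs[gs.length - 1]? = some g → ∀ q, g (q, false) = none)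
    {u : Vtx Q} (hu : Leads gs u (gs.length, qt, true)) (hus : u ≠ (0, qi, true))
    {d : Vtx Q × Bool} (hd : dcls (gfun gs) d = some u) :
    ∃ (i : ℕ) (g : CellFun Q) (x : Port Q ⊕ Port Q), gs[i]? = some g ∧ d = dart i x := by
  have hlen : 0 < gs.length := List.length_pos_iff.2 hne
  obtain ⟨v, lv⟩ := d
  cases lv with
  | true =>
    have hd' : gfun gs v = some u := hd
    obtain ⟨i, g, h2, h3, -⟩ := gfun_some hd'
    obtain ⟨b, q, dir⟩ := v
    cases dir with
    | true =>
      have hi : b = i := by simpa [cellOf] using h2
      exact ⟨i, g, Sum.inl (q, true), h3, by rw [hi]; rfl⟩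
    | false =>
      refine ⟨i, g, Sum.inr (q, false), h3, ?_⟩
      unfold cellOf at h2
      simp only [Bool.false_eq_true, if_false] at h2
      split_ifs at h2 with hb
      have := Option.some.inj h2
      have hb2 : b = i + 1 := by omega
      rw [hb2]
      rfl
  | false =>
    have hd' : v = u := Option.some.inj hd
    subst hd'
    obtain ⟨b, q, dir⟩ := v
    cases dir with
    | true =>
      have hle := leads_le hu
      simp only at hle
      have hb : b ≠ 0 := by
        rintro rfl
        rcases leads_head hu with h2 | ⟨u', h2, -⟩
        · have := congrArg Prod.fst h2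
          simp only at this
          omega
        · obtain ⟨i, g, h3, h4, h5⟩ := gfun_some h2
          have hi : i = 0 := by simpa [cellOf] using h3.symm
          subst hi
          have hq : q = qi := by
            by_contra hq
            rw [show ((0, q, true) : Vtx Q).2 = (q, true) from rfl, h0 g h4 q hq] at h5
            cases h5
          exact hus (by rw [hq])
      obtain ⟨c, rfl⟩ : ∃ c, b = c + 1 := ⟨b - 1, by omega⟩
      have hc : c < gs.length := by omega
      exact ⟨c, gs[c], Sum.inr (q, true), List.getElem?_eq_getElem hc, rfl⟩
    | false =>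
      rcases leads_head hu with h2 | ⟨u', h2, -⟩
      · have := congrArg (fun v : Vtx Q => v.2.2) h2
        simp at this
      · obtain ⟨i, g, h3, h4, h5⟩ := gfun_some h2
        have h4' : i < gs.length := by
          by_contra hcon
          rw [List.getElem?_eq_none (not_lt.1 hcon)] at h4
          cases h4
        unfold cellOf at h3
        simp only [Bool.false_eq_true, if_false] at h3
        split_ifs at h3 with hb
        have h6 := Option.some.inj h3
        have hb2 : b < gs.length := by
          by_contra hcon
          have h7 : i = gs.length - 1 := by omega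
          subst h7
          rw [show ((b, q, false) : Vtx Q).2 = (q, false) from rfl, h1 g h4 q] at h5
          cases h5
        exact ⟨b, gs[b], Sum.inl (q, false), List.getElem?_eq_getElem hb2, rfl⟩

/-- The network of the cells `gs` connects the port `(qt, →)` at the right end to the port `(qi, →)` at the left end iff
the vertex `(0, qi, →)` leads to the vertex `(N, qt, →)`. -/
theorem net [Finite Q] (gs : List (CellFun Q)) (hne : gs ≠ []) (qi qt : Q)
    (h0 : ∀ g, gs[0]? = some g → ∀ q, q ≠ qi → g (q, true) = none)
    (h1 : ∀ g, gs[gs.length - 1]? = some g → ∀ q, g (q, false) = none) :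
    (gs.map cellScat).prod.perm (Sum.inr (qt, true)) = Sum.inr (qi, true) ↔
      Leads gs (0, qi, true) (gs.length, qt, true) := by
  classical
  have hlen : 0 < gs.length := List.length_pos_iff.2 hne
  have ht : gfun gs (gs.length, qt, true) = none := gfun_end gs qt
  rw [prod_perm_iff _ (by simpa using hne)]
  simp only [Sum.elim_inr, List.length_map]
  constructor
  · intro h
    refine run_leads ht h ?_ rfl
    have e : (dart (gs.length - 1) (Sum.inr (qt, true)) : Vtx Q × Bool).1 = (gs.length, qt, true) := by
      show ((gs.length - 1 + 1, qt, true) : Vtx Q) = (gs.length, qt, true)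
      rw [Nat.sub_add_cancel hlen]
    rw [e]
    exact Relation.ReflTransGen.refl
  · intro hs
    set fs := gs.map (cellScat (Q := Q)) with hfs
    set y₀ : Port Q ⊕ Port Q := Sum.inr (qi, true) with hy₀
    have hflen : fs.length = gs.length := by rw [hfs, List.length_map]
    let Run : Vtx Q × Bool → Prop := fun d =>
      if d.1.2.2 = d.2 then
        (if d.1.1 < gs.length then RunL fs d.1.1 (Sum.inl d.1.2) y₀ else Sum.inl d.1.2 = y₀)
      else (if d.1.1 = 0 then Sum.inr d.1.2 = y₀ else RunL fs (d.1.1 - 1) (Sum.inr d.1.2) y₀)
    let gr : Vtx Q × Bool → Vtx Q × Bool := fun d => match node d with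
      | none => d
      | some ix => match gs[ix.1]? with
        | none => d
        | some g => dart ix.1 (crho g ix.2)
    have hgr : ∀ {i : ℕ} {g : CellFun Q}, gs[i]? = some g → ∀ x, gr (dart i x) = dart i (crho g x) := by
      intro i g hg x
      show (match node (dart i x) with
        | none => dart i x
        | some ix => match gs[ix.1]? with
          | none => dart i x
          | some g => dart ix.1 (crho g ix.2)) = _
      rw [node_dart]
      simp only [hg]
    have hgri : ∀ {i : ℕ} {g : CellFun Q}, gs[i]? = some g → ∀ (n : ℕ) x,
        gr^[n] (dart i x) = dart i ((crho g)^[n] x) := by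
      intro i g hg n
      induction n with
      | zero => intro x; rfl
      | succ n ih => intro x; rw [Function.iterate_succ_apply, hgr hg, ih, Function.iterate_succ_apply]
    have hRun : ∀ {i : ℕ}, i < gs.length → ∀ x, RunL fs i x y₀ → Run (dart i x) := by
      intro i hi x hx
      rcases x with p | p
      · show (if p.2 = p.2 then
          (if i < gs.length then RunL fs i (Sum.inl p) y₀ else Sum.inl p = y₀)
          else _)
        rw [if_pos rfl, if_pos hi]
        exact hx
      · show (if p.2 = !p.2 then _
          else (if i + 1 = 0 then Sum.inr p = y₀ else RunL fs (i + 1 - 1) (Sum.inr p) y₀))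
        rw [if_neg (by cases p.2 <;> simp), if_neg (Nat.succ_ne_zero i)]
        exact hx
    have key : Run ((gs.length, qt, true), false) := by
      refine dfs_core (gfun gs) (s₀ := (0, qi, true)) ht ?_ gr Run ?_ ?_ ?_ ?_ hs
      · -- finiteness
        refine Set.Finite.subset (((Set.finite_Iic gs.length).prod (Set.finite_univ (α := Port Q)))) ?_
        intro v hv
        exact ⟨leads_le hv, Set.mem_univ _⟩
      · intro u hu hus d hd
        obtain ⟨i, g, x, hg, rfl⟩ := exists_node hne h0 h1 hu hus hd
        rw [hgr hg, dcls_dart hg, crho_cls, ← dcls_dart hg]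
        exact hd
      · intro u hu hus d d' hd hd'
        obtain ⟨i, g, x, hg, rfl⟩ := exists_node hne h0 h1 hu hus hd
        obtain ⟨j, g', x', hg', rfl⟩ := exists_node hne h0 h1 hu hus hd'
        rw [dcls_dart hg] at hd
        rw [dcls_dart hg'] at hd'
        obtain ⟨o, ho, ho'⟩ := Option.map_eq_some_iff.1 hd
        obtain ⟨o₂, ho₂, ho₂'⟩ := Option.map_eq_some_iff.1 hd'
        obtain ⟨hij, hoo⟩ := lift_inj (ho'.trans ho₂'.symm)
        subst hij
        subst hoo
        have hgg : g = g' := by
          rw [hg] at hg'
          exact Option.some.inj hg'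
        subst hgg
        obtain ⟨n, hn⟩ := crho_cyc g x x' (by rw [ho, ho₂]) (by rw [ho]; simp)
        exact ⟨n, by rw [hgri hg, hn]⟩
      · intro u hu hus d hd hrun
        obtain ⟨i, g, x, hg, rfl⟩ := exists_node hne h0 h1 hu hus hd
        rw [hgr hg] at hrun
        have hi : i < gs.length := by
          by_contra hcon
          rw [List.getElem?_eq_none (not_lt.1 hcon)] at hg
          cases hg
        have hfg : fs[i]? = some (cellScat g) := by rw [hfs, List.getElem?_map, hg]; rfl
        apply hRun hi
        rcases hx' : crho g x with p | p
        · rw [hx'] at hrun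
          have hperm : (cellScat g).perm x = Sum.inr p := by rw [cellScat_perm, hx']; rfl
          have hrun' : (if p.2 = !p.2 then
              (if i < gs.length then RunL fs i (Sum.inl p) y₀ else Sum.inl p = y₀)
              else (if i = 0 then Sum.inr p = y₀ else RunL fs (i - 1) (Sum.inr p) y₀)) := hrun
          rw [if_neg (by cases p.2 <;> simp)] at hrun'
          rcases Nat.eq_zero_or_pos i with hi0 | hi0
          · subst hi0
            rw [if_pos rfl] at hrun'
            rw [← hrun']
            exact RunL.out_left hfg hperm
          · obtain ⟨c, rfl⟩ : ∃ c, i = c + 1 := ⟨i - 1, by omega⟩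
            rw [if_neg (Nat.succ_ne_zero c)] at hrun'
            exact RunL.step_left hfg hperm hrun'
        · rw [hx'] at hrun
          have hperm : (cellScat g).perm x = Sum.inl p := by rw [cellScat_perm, hx']; rfl
          have hrun' : (if p.2 = !!p.2 then
              (if i + 1 < gs.length then RunL fs (i + 1) (Sum.inl p) y₀ else Sum.inl p = y₀)
              else (if i + 1 = 0 then Sum.inr p = y₀ else RunL fs (i + 1 - 1) (Sum.inr p) y₀)) := hrun
          rw [Bool.not_not, if_pos rfl] at hrun'
          split_ifs at hrun' with hi1
          exact RunL.step_right hfg (by rw [hflen]; exact hi1) hperm hrun'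
      · show (if true = false then _ else (if 0 = 0 then (Sum.inr (qi, true) : Port Q ⊕ Port Q) = y₀ else _))
        simp [hy₀]
    have key' : (if true = false then
        (if gs.length < gs.length then RunL fs gs.length (Sum.inl (qt, true)) y₀ else Sum.inl (qt, true) = y₀)
        else (if gs.length = 0 then Sum.inr (qt, true) = y₀
          else RunL fs (gs.length - 1) (Sum.inr (qt, true)) y₀)) := key
    rw [if_neg (by simp), if_neg hlen.ne'] at key'
    exact key'

end Net

end Vale.Agent.P343
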