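import Mathlib

/-!
# P343, module M1: scattering bijections (star product)
-/

namespace Vale.Agent.P343

section Hit

variable {E M : Type}

/-- `Hit T w y`: starting at `w` and moving by `T` while in `M`, the first element of `E` reached is `y`. -/
inductive Hit (T : E ⊕ M → E ⊕ M) : E ⊕ M → E → Prop
  | out (y : E) : Hit T (Sum.inl y) y
  | step {m : M} {y : E} (h : Hit T (T (Sum.inr m)) y) : Hit T (Sum.inr m) y

theorem Hit.unique {T : E ⊕ M → E ⊕ M} {w : E ⊕ M} {y y' : E} (h : Hit T w y)
    (h' : Hit T w y') : y = y' := by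
  induction h with
  | out y => cases h'; rfl
  | step h ih => cases h' with
    | step h' => exact ih h'

/-- `Own T x z`: the point `z` is visited by the run from `x` before the first return to `E`. -/
inductive Own (T : E ⊕ M → E ⊕ M) (x : E) : E ⊕ M → Prop
  | base : Own T x (Sum.inl x)
  | step {z : E ⊕ M} {m : M} (h : Own T x z) (hz : T z = Sum.inr m) : Own T x (Sum.inr m)

theorem Own.unique {T : E ⊕ M → E ⊕ M} (hT : Function.Injective T) {x x' : E} {z : E ⊕ M}
    (h : Own T x z) (h' : Own T x' z) : x = x' := by
  induction h with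
  | base => cases h'; rfl
  | step h hz ih => cases h' with
    | step h' hz' =>
      have := hT (hz.trans hz'.symm)
      subst this
      exact ih h'

theorem Hit.own {T : E ⊕ M → E ⊕ M} {w : E ⊕ M} {y : E} (h : Hit T w y) :
    ∀ (x : E) (z : E ⊕ M), Own T x z → T z = w → ∃ z', Own T x z' ∧ T z' = Sum.inl y := by
  induction h with
  | out y => intro x z hz hw; exact ⟨z, hz, hw⟩
  | step h ih => intro x z hz hw; exact ih x _ (Own.step hz hw) rfl

/-- If two systems agree along the run, they hit the same point. -/
theorem Hit.congr_own {T T' : E ⊕ M → E ⊕ M} {x : E} (hTT : ∀ z, Own T x z → T z = T' z)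
    {w : E ⊕ M} {y : E} (h : Hit T w y) :
    ∀ z : E ⊕ M, Own T x z → T z = w → Hit T' w y := by
  induction h with
  | out y => intro z _ _; exact Hit.out _
  | @step m y h ih =>
    intro z hz hw
    have h1 : Own T x (Sum.inr m) := Own.step hz hw
    have h2 := ih (Sum.inr m) h1 rfl
    rw [hTT _ h1] at h2
    exact Hit.step h2

theorem Hit.exists_of_perm [Finite E] [Finite M] (T : Equiv.Perm (E ⊕ M)) (x : E) :
    ∃ y, Hit T (T (Sum.inl x)) y := by
  classical
  have key : ∀ n : ℕ, (∃ y, Hit T (T (Sum.inl x)) y) ∨
      (∃ m, (T ^ (n + 1)) (Sum.inl x) = Sum.inr m ∧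
        ∀ y, Hit T (Sum.inr m) y → Hit T (T (Sum.inl x)) y) := by
    intro n
    induction n with
    | zero =>
      rcases hTx : T (Sum.inl x) with y | m
      · left; exact ⟨y, Hit.out y⟩
      · right; exact ⟨m, by simpa using hTx, fun y hy => hy⟩
    | succ n ih =>
      rcases ih with h | ⟨m, hm, hm'⟩
      · exact Or.inl h
      · rcases hTm : T (Sum.inr m) with y | m'
        · left
          refine ⟨y, hm' y (Hit.step ?_)⟩
          rw [hTm]; exact Hit.out y
        · right
          refine ⟨m', ?_, fun y hy => hm' y (Hit.step ?_)⟩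
          · rw [pow_succ', Equiv.Perm.mul_apply, hm, hTm]
          · rw [hTm]; exact hy
  have hpos : 0 < orderOf T := orderOf_pos T
  obtain ⟨n, hn⟩ : ∃ n, orderOf T = n + 1 := ⟨orderOf T - 1, by omega⟩
  rcases key n with h | ⟨m, hm, _⟩
  · exact h
  · rw [← hn, pow_orderOf_eq_one] at hm
    simp at hm

/-- First return permutation. -/
theorem exists_ret [Finite E] [Finite M] (T : Equiv.Perm (E ⊕ M)) :
    ∃ r : Equiv.Perm E, ∀ x, Hit T (T (Sum.inl x)) (r x) := by
  choose f hf using fun x => Hit.exists_of_perm T x
  have hinj : Function.Injective f := by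
    intro x x' hxx
    obtain ⟨z, hz, hz'⟩ := (hf x).own x (Sum.inl x) Own.base rfl
    obtain ⟨w, hw, hw'⟩ := (hf x').own x' (Sum.inl x') Own.base rfl
    have : z = w := T.injective (by rw [hz', hw', hxx])
    subst this
    exact Own.unique T.injective hz hw
  exact ⟨Equiv.ofBijective f (Finite.injective_iff_bijective.mp hinj), fun x => hf x⟩

/-- The first return permutation. -/
noncomputable def ret [Finite E] [Finite M] (T : Equiv.Perm (E ⊕ M)) : Equiv.Perm E :=
  (exists_ret T).choose

theorem ret_spec [Finite E] [Finite M] (T : Equiv.Perm (E ⊕ M)) (x : E) :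
    Hit T (T (Sum.inl x)) (ret T x) := (exists_ret T).choose_spec x

theorem ret_eq_iff [Finite E] [Finite M] {T : Equiv.Perm (E ⊕ M)} {x y : E} :
    ret T x = y ↔ Hit T (T (Sum.inl x)) y :=
  ⟨fun h => h ▸ ret_spec T x, fun h => (ret_spec T x).unique h⟩

/-- The first return map changes at no more points than the permutation: an injection. -/
theorem exists_inj_ret_ne [Finite E] [Finite M] (T T' : Equiv.Perm (E ⊕ M)) :
    ∃ φ : E → E ⊕ M, (∀ x, ret T x ≠ ret T' x → T (φ x) ≠ T' (φ x)) ∧
      ∀ x x', ret T x ≠ ret T' x → ret T x' ≠ ret T' x' → φ x = φ x' → x = x' := by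
  classical
  have h1 : ∀ x : E, ∃ z, ret T x ≠ ret T' x → Own T x z ∧ T z ≠ T' z := by
    intro x
    by_cases hx : ret T x = ret T' x
    · exact ⟨Sum.inl x, fun h => absurd hx h⟩
    · by_contra hcon
      push Not at hcon
      apply hx
      have hcon' : ∀ z, Own T x z → T z = T' z := by
        intro z hz
        by_contra hne
        exact hne ((hcon z).2 hz)
      have := (ret_spec T x).congr_own (T' := T') (x := x) hcon' (Sum.inl x) Own.base rfl
      rw [hcon' _ Own.base] at this
      exact (ret_eq_iff.mpr this).symm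
  choose f hf using h1
  refine ⟨f, fun x hx => (hf x hx).2, ?_⟩
  intro x x' hx hx' hxx
  have h2 := (hf x hx).1
  have h3 := (hf x' hx').1
  rw [← hxx] at h3
  exact Own.unique T.injective h2 h3

end Hit

/-- A scattering bijection. Input `inl r` arrives at the left boundary moving right, input `inr l` arrives at
the right boundary moving left; output `inl r` leaves at the right boundary, output `inr l` leaves at the left boundary. -/
@[ext] structure Scat (R L : Type) where
  perm : Equiv.Perm (R ⊕ L)

namespace Scat

variable {R L : Type}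

/-- the run in the composite of `f` (left) and `g` (right). Node `(false, x)`: about to apply `f` to `x`;
node `(true, x)`: about to apply `g` to `x`. `Reach f g b x y`: the run from node `(b,x)` leaves the composite at `y`. -/
inductive Reach (f g : Scat R L) : Bool → R ⊕ L → R ⊕ L → Prop
  | f_out {x : R ⊕ L} {l : L} (h : f.perm x = Sum.inr l) : Reach f g false x (Sum.inr l)
  | f_step {x y : R ⊕ L} {r : R} (h : f.perm x = Sum.inl r) (h' : Reach f g true (Sum.inl r) y) :
      Reach f g false x y
  | g_out {x : R ⊕ L} {r : R} (h : g.perm x = Sum.inl r) : Reach f g true x (Sum.inl r)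
  | g_step {x y : R ⊕ L} {l : L} (h : g.perm x = Sum.inr l) (h' : Reach f g false (Sum.inr l) y) :
      Reach f g true x y

/-- which factor receives an outer input: `inl r` enters the left factor, `inr l` enters the right factor -/
def side : R ⊕ L → Bool := Sum.elim (fun _ => false) (fun _ => true)

/-- the identity scattering -/
def one : Scat R L := ⟨Equiv.refl _⟩

/-- regrouping of the inputs: external ⊕ middle ≃ inputs of `f` ⊕ inputs of `g` -/
def grpIn : (R ⊕ L) ⊕ (R ⊕ L) ≃ (R ⊕ L) ⊕ (R ⊕ L) where
  toFun
    | .inl (.inl r) => .inl (.inl r)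
    | .inl (.inr l) => .inr (.inr l)
    | .inr (.inl r) => .inr (.inl r)
    | .inr (.inr l) => .inl (.inr l)
  invFun
    | .inl (.inl r) => .inl (.inl r)
    | .inr (.inr l) => .inl (.inr l)
    | .inr (.inl r) => .inr (.inl r)
    | .inl (.inr l) => .inr (.inr l)
  left_inv := by rintro ((r | l) | (r | l)) <;> rfl
  right_inv := by rintro ((r | l) | (r | l)) <;> rfl

/-- regrouping of the outputs: outputs of `f` ⊕ outputs of `g` ≃ external ⊕ middle -/
def grpOut : (R ⊕ L) ⊕ (R ⊕ L) ≃ (R ⊕ L) ⊕ (R ⊕ L) where
  toFun
    | .inl (.inl r) => .inr (.inl r)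
    | .inl (.inr l) => .inl (.inr l)
    | .inr (.inl r) => .inl (.inl r)
    | .inr (.inr l) => .inr (.inr l)
  invFun
    | .inr (.inl r) => .inl (.inl r)
    | .inl (.inr l) => .inl (.inr l)
    | .inl (.inl r) => .inr (.inl r)
    | .inr (.inr l) => .inr (.inr l)
  left_inv := by rintro ((r | l) | (r | l)) <;> rfl
  right_inv := by rintro ((r | l) | (r | l)) <;> rfl

/-- The two-box system on external ports ⊕ middle ports. -/
def sys (f g : Scat R L) : Equiv.Perm ((R ⊕ L) ⊕ (R ⊕ L)) :=
  (grpIn.trans (Equiv.sumCongr f.perm g.perm)).trans grpOut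

/-- the point of the two-box system at which the factor `false ↦ f`, `true ↦ g` is about to be applied to `x` -/
def node : Bool → R ⊕ L → (R ⊕ L) ⊕ (R ⊕ L)
  | false, .inl r => .inl (.inl r)
  | false, .inr l => .inr (.inr l)
  | true, .inl r => .inr (.inl r)
  | true, .inr l => .inl (.inr l)

theorem sys_node_false (f g : Scat R L) (x : R ⊕ L) :
    sys f g (node false x) = grpOut (.inl (f.perm x)) := by
  rcases x with r | l <;> rfl

theorem sys_node_true (f g : Scat R L) (x : R ⊕ L) :
    sys f g (node true x) = grpOut (.inr (g.perm x)) := by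
  rcases x with r | l <;> rfl

theorem node_side (x : R ⊕ L) : node (side x) x = .inl x := by
  rcases x with r | l <;> rfl

theorem hit_of_reach {f g : Scat R L} {b : Bool} {x y : R ⊕ L} (h : Reach f g b x y) :
    Hit (sys f g) (sys f g (node b x)) y := by
  induction h with
  | f_out h => rw [sys_node_false, h]; exact Hit.out _
  | f_step h _ ih => rw [sys_node_false, h]; exact Hit.step ih
  | g_out h => rw [sys_node_true, h]; exact Hit.out _
  | g_step h _ ih => rw [sys_node_true, h]; exact Hit.step ih

theorem reach_of_hit {f g : Scat R L} {w : (R ⊕ L) ⊕ (R ⊕ L)} {y : R ⊕ L}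
    (h : Hit (sys f g) w y) :
    ∀ (b : Bool) (x : R ⊕ L), sys f g (node b x) = w → Reach f g b x y := by
  induction h with
  | out y =>
    intro b x hx
    cases b with
    | false =>
      rw [sys_node_false] at hx
      rcases hf : f.perm x with r | l
      · rw [hf] at hx; exact absurd hx (by simp [grpOut])
      · rw [hf] at hx
        have : y = .inr l := by simpa [grpOut] using hx.symm
        subst this
        exact Reach.f_out hf
    | true =>
      rw [sys_node_true] at hx
      rcases hf : g.perm x with r | l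
      · rw [hf] at hx
        have : y = .inl r := by simpa [grpOut] using hx.symm
        subst this
        exact Reach.g_out hf
      · rw [hf] at hx; exact absurd hx (by simp [grpOut])
  | @step m y h ih =>
    intro b x hx
    cases b with
    | false =>
      rw [sys_node_false] at hx
      rcases hf : f.perm x with r | l
      · rw [hf] at hx
        have : m = .inl r := by simpa [grpOut] using hx.symm
        subst this
        exact Reach.f_step hf (ih true (.inl r) rfl)
      · rw [hf] at hx; exact absurd hx (by simp [grpOut])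
    | true =>
      rw [sys_node_true] at hx
      rcases hf : g.perm x with r | l
      · rw [hf] at hx; exact absurd hx (by simp [grpOut])
      · rw [hf] at hx
        have : m = .inr l := by simpa [grpOut] using hx.symm
        subst this
        exact Reach.g_step hf (ih false (.inr l) rfl)

/-- Star product. -/
noncomputable def mul [Finite R] [Finite L] (f g : Scat R L) : Scat R L := ⟨ret (sys f g)⟩

theorem mul_spec [Finite R] [Finite L] (f g : Scat R L) (x y : R ⊕ L) :
    (mul f g).perm x = y ↔ Reach f g (side x) x y := by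
  show ret (sys f g) x = y ↔ _
  rw [ret_eq_iff, ← node_side x]
  constructor
  · intro h
    exact reach_of_hit h (side x) x rfl
  · intro h
    have := hit_of_reach h
    simpa [node_side] using this

/-- The run in a composite of three scattering bijections. -/
inductive Reach3 (f g h : Scat R L) : Fin 3 → R ⊕ L → R ⊕ L → Prop
  | f_out {x : R ⊕ L} {l : L} (e : f.perm x = Sum.inr l) : Reach3 f g h 0 x (Sum.inr l)
  | f_step {x y : R ⊕ L} {r : R} (e : f.perm x = Sum.inl r) (e' : Reach3 f g h 1 (Sum.inl r) y) :
      Reach3 f g h 0 x y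
  | g_left {x y : R ⊕ L} {l : L} (e : g.perm x = Sum.inr l) (e' : Reach3 f g h 0 (Sum.inr l) y) :
      Reach3 f g h 1 x y
  | g_right {x y : R ⊕ L} {r : R} (e : g.perm x = Sum.inl r) (e' : Reach3 f g h 2 (Sum.inl r) y) :
      Reach3 f g h 1 x y
  | h_step {x y : R ⊕ L} {l : L} (e : h.perm x = Sum.inr l) (e' : Reach3 f g h 1 (Sum.inr l) y) :
      Reach3 f g h 2 x y
  | h_out {x : R ⊕ L} {r : R} (e : h.perm x = Sum.inl r) : Reach3 f g h 2 x (Sum.inl r)

theorem Reach3.unique {f g h : Scat R L} {i : Fin 3} {x y y' : R ⊕ L} (H : Reach3 f g h i x y)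
    (H' : Reach3 f g h i x y') : y = y' := by
  induction H with
  | f_out e => cases H' with
    | f_out e1 => rw [e] at e1; exact e1
    | f_step e1 _ => rw [e] at e1; simp at e1
  | f_step e _ ih => cases H' with
    | f_out e1 => rw [e] at e1; simp at e1
    | f_step e1 e2 =>
      rw [e] at e1
      obtain rfl := Sum.inl.inj e1
      exact ih e2
  | g_left e _ ih => cases H' with
    | g_left e1 e2 =>
      rw [e] at e1
      obtain rfl := Sum.inr.inj e1
      exact ih e2
    | g_right e1 _ => rw [e] at e1; simp at e1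
  | g_right e _ ih => cases H' with
    | g_left e1 _ => rw [e] at e1; simp at e1
    | g_right e1 e2 =>
      rw [e] at e1
      obtain rfl := Sum.inl.inj e1
      exact ih e2
  | h_step e _ ih => cases H' with
    | h_step e1 e2 =>
      rw [e] at e1
      obtain rfl := Sum.inr.inj e1
      exact ih e2
    | h_out e1 => rw [e] at e1; simp at e1
  | h_out e => cases H' with
    | h_step e1 _ => rw [e] at e1; simp at e1
    | h_out e1 => rw [e] at e1; exact e1

/-- node of the three-fold run at which a run of the product of the first two factors enters -/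
def nd01 : Bool → Fin 3
  | false => 0
  | true => 1

/-- node of the three-fold run at which a run of the product of the last two factors enters -/
def nd12 : Bool → Fin 3
  | false => 1
  | true => 2

theorem reach3_of_reach_left {f g h : Scat R L} {b : Bool} {x o : R ⊕ L} (H : Reach f g b x o) :
    (∀ l, o = Sum.inr l → Reach3 f g h (nd01 b) x (Sum.inr l)) ∧
      (∀ r, o = Sum.inl r → ∀ y, Reach3 f g h 2 (Sum.inl r) y → Reach3 f g h (nd01 b) x y) := by
  induction H with
  | @f_out x l e =>
    refine ⟨?_, by rintro r hr; simp at hr⟩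
    rintro l' hl
    rw [← hl]
    exact Reach3.f_out e
  | f_step e _ ih =>
    exact ⟨fun l hl => Reach3.f_step e (ih.1 l hl), fun r hr y hy => Reach3.f_step e (ih.2 r hr y hy)⟩
  | g_out e =>
    refine ⟨by rintro r hr; simp at hr, ?_⟩
    rintro r' hr y hy
    rw [← hr] at hy
    exact Reach3.g_right e hy
  | g_step e _ ih =>
    exact ⟨fun l hl => Reach3.g_left e (ih.1 l hl), fun r hr y hy => Reach3.g_left e (ih.2 r hr y hy)⟩

theorem reach3_of_reach_right {f g h : Scat R L} {b : Bool} {x o : R ⊕ L} (H : Reach g h b x o) :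
    (∀ r, o = Sum.inl r → Reach3 f g h (nd12 b) x (Sum.inl r)) ∧
      (∀ l, o = Sum.inr l → ∀ y, Reach3 f g h 0 (Sum.inr l) y → Reach3 f g h (nd12 b) x y) := by
  induction H with
  | f_out e =>
    refine ⟨by rintro r hr; simp at hr, ?_⟩
    rintro r' hr y hy
    rw [← hr] at hy
    exact Reach3.g_left e hy
  | f_step e _ ih =>
    exact ⟨fun l hl => Reach3.g_right e (ih.1 l hl), fun r hr y hy => Reach3.g_right e (ih.2 r hr y hy)⟩
  | g_out e =>
    refine ⟨?_, by rintro r hr; simp at hr⟩
    rintro l' hl
    rw [← hl]
    exact Reach3.h_out e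
  | g_step e _ ih =>
    exact ⟨fun l hl => Reach3.h_step e (ih.1 l hl), fun r hr y hy => Reach3.h_step e (ih.2 r hr y hy)⟩

theorem reach3_of_mul_left [Finite R] [Finite L] {f g h : Scat R L} {b : Bool} {x y : R ⊕ L}
    (H : Reach (mul f g) h b x y) :
    (b = false → Reach3 f g h (nd01 (side x)) x y) ∧ (b = true → Reach3 f g h 2 x y) := by
  induction H with
  | @f_out x l e =>
    refine ⟨fun _ => ?_, by simp⟩
    exact (reach3_of_reach_left ((mul_spec f g _ _).mp e)).1 l rfl
  | f_step e _ ih =>
    refine ⟨fun _ => ?_, by simp⟩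
    exact (reach3_of_reach_left ((mul_spec f g _ _).mp e)).2 _ rfl _ (ih.2 rfl)
  | g_out e => exact ⟨by simp, fun _ => Reach3.h_out e⟩
  | g_step e _ ih => exact ⟨by simp, fun _ => Reach3.h_step e (ih.1 rfl)⟩

theorem reach3_of_mul_right [Finite R] [Finite L] {f g h : Scat R L} {b : Bool} {x y : R ⊕ L}
    (H : Reach f (mul g h) b x y) :
    (b = false → Reach3 f g h 0 x y) ∧ (b = true → Reach3 f g h (nd12 (side x)) x y) := by
  induction H with
  | f_out e => exact ⟨fun _ => Reach3.f_out e, by simp⟩
  | f_step e _ ih => exact ⟨fun _ => Reach3.f_step e (ih.2 rfl), by simp⟩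
  | @g_out x r e =>
    refine ⟨by simp, fun _ => ?_⟩
    exact (reach3_of_reach_right ((mul_spec g h _ _).mp e)).1 r rfl
  | g_step e _ ih =>
    refine ⟨by simp, fun _ => ?_⟩
    exact (reach3_of_reach_right ((mul_spec g h _ _).mp e)).2 _ rfl _ (ih.1 rfl)

theorem mul_assoc' [Finite R] [Finite L] (f g h : Scat R L) :
    mul (mul f g) h = mul f (mul g h) := by
  apply Scat.ext
  apply Equiv.ext
  intro x
  have h1 := reach3_of_mul_left ((mul_spec (mul f g) h x _).mp rfl)
  have h2 := reach3_of_mul_right ((mul_spec f (mul g h) x _).mp rfl)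
  rcases x with r | l
  · exact (h1.1 rfl).unique (h2.1 rfl)
  · exact (h1.2 rfl).unique (h2.2 rfl)

theorem one_mul' [Finite R] [Finite L] (g : Scat R L) : mul one g = g := by
  apply Scat.ext
  apply Equiv.ext
  intro x
  rw [mul_spec]
  have key : ∀ z : R ⊕ L, Reach one g true z (g.perm z) := by
    intro z
    rcases h : g.perm z with r | l
    · exact Reach.g_out h
    · exact Reach.g_step h (Reach.f_out rfl)
  rcases x with r | l
  · exact Reach.f_step rfl (key _)
  · exact key _

theorem mul_one' [Finite R] [Finite L] (f : Scat R L) : mul f one = f := by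
  apply Scat.ext
  apply Equiv.ext
  intro x
  rw [mul_spec]
  have key : ∀ z : R ⊕ L, Reach f one false z (f.perm z) := by
    intro z
    rcases h : f.perm z with r | l
    · exact Reach.f_step h (Reach.g_out rfl)
    · exact Reach.f_out h
  rcases x with r | l
  · exact key _
  · exact Reach.g_step rfl (key _)

noncomputable instance instMonoid [Finite R] [Finite L] : Monoid (Scat R L) where
  one := one
  mul := mul
  mul_assoc := mul_assoc'
  one_mul := one_mul'
  mul_one := mul_one'

theorem one_perm [Finite R] [Finite L] : (1 : Scat R L).perm = Equiv.refl _ := rfl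

theorem mul_perm_iff [Finite R] [Finite L] (f g : Scat R L) (x y : R ⊕ L) :
    (f * g).perm x = y ↔ Reach f g (side x) x y := mul_spec f g x y

instance instFinite [Finite R] [Finite L] : Finite (Scat R L) :=
  Finite.of_injective (fun f : Scat R L => f.perm) (fun _ _ h => Scat.ext h)

open Classical in
/-- number of ports at which two scattering bijections differ -/
noncomputable def sdist [Fintype R] [Fintype L] (f g : Scat R L) : ℕ :=
  (Finset.univ.filter (fun x : R ⊕ L => f.perm x ≠ g.perm x)).card

theorem sdist_eq_zero [Fintype R] [Fintype L] {f g : Scat R L} (h : sdist f g = 0) : f = g := by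
  classical
  apply Scat.ext
  apply Equiv.ext
  intro x
  unfold sdist at h
  rw [Finset.card_eq_zero] at h
  by_contra hne
  have : x ∈ Finset.univ.filter (fun x : R ⊕ L => f.perm x ≠ g.perm x) := by simpa using hne
  rw [h] at this
  simp at this

theorem sdist_le_card [Fintype R] [Fintype L] (f g : Scat R L) :
    sdist f g ≤ Fintype.card R + Fintype.card L := by
  classical
  unfold sdist
  calc _ ≤ (Finset.univ : Finset (R ⊕ L)).card := Finset.card_filter_le _ _
    _ = _ := by rw [Finset.card_univ, Fintype.card_sum]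

theorem mul_perm_eq [Finite R] [Finite L] (f g : Scat R L) : (f * g).perm = ret (sys f g) := rfl

theorem sdist_mul_right [Fintype R] [Fintype L] (f g b : Scat R L) :
    sdist (f * b) (g * b) ≤ sdist f g := by
  classical
  obtain ⟨φ, h1, h2⟩ := exists_inj_ret_ne (sys f b) (sys g b)
  have h3 : ∀ x, ret (sys f b) x ≠ ret (sys g b) x →
      ∃ u, grpIn (φ x) = Sum.inl u ∧ f.perm u ≠ g.perm u := by
    intro x hx
    have h4 := h1 x hx
    simp only [sys, Equiv.trans_apply] at h4
    rcases h : grpIn (φ x) with u | u
    · refine ⟨u, rfl, fun hu => h4 ?_⟩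
      rw [h]; simp [hu]
    · rw [h] at h4
      exact absurd rfl h4
  unfold sdist
  refine Finset.card_le_card_of_injOn (fun x => Sum.elim id id (grpIn (φ x))) ?_ ?_
  · intro x hx
    simp only [Finset.coe_filter, Finset.mem_univ, true_and, Set.mem_ofPred_eq] at hx ⊢
    obtain ⟨u, hu, hu'⟩ := h3 x hx
    rw [hu]; exact hu'
  · intro x hx x' hx' hxx
    simp only [Finset.coe_filter, Finset.mem_univ, true_and, Set.mem_ofPred_eq] at hx hx'
    obtain ⟨u, hu, -⟩ := h3 x hx
    obtain ⟨u', hu', -⟩ := h3 x' hx'
    have h5 : u = u' := by simpa [hu, hu'] using hxx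
    refine h2 x x' hx hx' (grpIn.injective ?_)
    rw [hu, hu', h5]

theorem sdist_mul_left [Fintype R] [Fintype L] (a f g : Scat R L) :
    sdist (a * f) (a * g) ≤ sdist f g := by
  classical
  obtain ⟨φ, h1, h2⟩ := exists_inj_ret_ne (sys a f) (sys a g)
  have h3 : ∀ x, ret (sys a f) x ≠ ret (sys a g) x →
      ∃ u, grpIn (φ x) = Sum.inr u ∧ f.perm u ≠ g.perm u := by
    intro x hx
    have h4 := h1 x hx
    simp only [sys, Equiv.trans_apply] at h4
    rcases h : grpIn (φ x) with u | u
    · rw [h] at h4
      exact absurd rfl h4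
    · refine ⟨u, rfl, fun hu => h4 ?_⟩
      rw [h]; simp [hu]
  unfold sdist
  refine Finset.card_le_card_of_injOn (fun x => Sum.elim id id (grpIn (φ x))) ?_ ?_
  · intro x hx
    simp only [Finset.coe_filter, Finset.mem_univ, true_and, Set.mem_ofPred_eq] at hx ⊢
    obtain ⟨u, hu, hu'⟩ := h3 x hx
    rw [hu]; exact hu'
  · intro x hx x' hx' hxx
    simp only [Finset.coe_filter, Finset.mem_univ, true_and, Set.mem_ofPred_eq] at hx hx'
    obtain ⟨u, hu, -⟩ := h3 x hx
    obtain ⟨u', hu', -⟩ := h3 x' hx'
    have h5 : u = u' := by simpa [hu, hu'] using hxx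
    refine h2 x x' hx hx' (grpIn.injective ?_)
    rw [hu, hu', h5]

/-- Monotonicity of the distance under contexts. -/
theorem sdist_mono [Fintype R] [Fintype L] (a f g b : Scat R L) :
    sdist (a * f * b) (a * g * b) ≤ sdist f g :=
  (sdist_mul_right _ _ _).trans (sdist_mul_left _ _ _)

/-- The fine run in a network given by a nonempty list of scattering bijections: `RunL fs i x y`: the run about to
apply `fs[i]` to `x` leaves the whole network at `y`. -/
inductive RunL (fs : List (Scat R L)) : ℕ → R ⊕ L → R ⊕ L → Prop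
  | out_left {x : R ⊕ L} {l : L} {f : Scat R L} (hf : fs[0]? = some f) (h : f.perm x = Sum.inr l) :
      RunL fs 0 x (Sum.inr l)
  | step_left {i : ℕ} {x y : R ⊕ L} {l : L} {f : Scat R L} (hf : fs[i + 1]? = some f)
      (h : f.perm x = Sum.inr l) (h' : RunL fs i (Sum.inr l) y) : RunL fs (i + 1) x y
  | step_right {i : ℕ} {x y : R ⊕ L} {r : R} {f : Scat R L} (hf : fs[i]? = some f) (hi : i + 1 < fs.length)
      (h : f.perm x = Sum.inl r) (h' : RunL fs (i + 1) (Sum.inl r) y) : RunL fs i x y
  | out_right {i : ℕ} {x : R ⊕ L} {r : R} {f : Scat R L} (hf : fs[i]? = some f) (hi : i + 1 = fs.length)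
      (h : f.perm x = Sum.inl r) : RunL fs i x (Sum.inl r)

end Scat

end Vale.Agent.P343
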