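import Vale.Agent.P343.Defs
import Vale.Agent.P343.Scat
import Vale.Agent.P343.Dfs

/-!
# P343, module M4: a 2DFA with `k` states gives a representation of words by scattering bijections on `4 (k+1)` ports
(NOTES.md, section 1)
-/

namespace Vale.Agent.P343

open Relation Scat

variable {α : Type} {k : ℕ}

/-- How a computation that is in state `p` inside a cell with symbol `σ` leaves the cell; `none` is the
extra state that runs to the right for ever (entered when an accepting state is met). -/
inductive ExitR (B : TwoNFA α (Fin k)) (σ : TapeSym α) : Fin k → Port (Option (Fin k)) → Prop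
  | acc {p : Fin k} (h : p ∈ B.accept) : ExitR B σ p (none, true)
  | right {p q : Fin k} (h : p ∉ B.accept) (h' : (q, Move.right) ∈ B.trans p σ) :
      ExitR B σ p (some q, true)
  | left {p q : Fin k} (h : p ∉ B.accept) (h' : (q, Move.left) ∈ B.trans p σ) :
      ExitR B σ p (some q, false)
  | stay {p q : Fin k} {r : Port (Option (Fin k))} (h : p ∉ B.accept)
      (h' : (q, Move.stay) ∈ B.trans p σ) (h'' : ExitR B σ q r) : ExitR B σ p r

theorem ExitR.unique {B : TwoNFA α (Fin k)} (hB : B.Deterministic) {σ : TapeSym α} {p : Fin k}
    {r r' : Port (Option (Fin k))} (h : ExitR B σ p r) (h' : ExitR B σ p r') : r = r' := by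
  induction h with
  | acc h =>
    cases h' with
    | acc _ => rfl
    | right h1 _ => exact absurd h h1
    | left h1 _ => exact absurd h h1
    | stay h1 _ _ => exact absurd h h1
  | right h h1 =>
    cases h' with
    | acc h2 => exact absurd h2 h
    | right _ h2 =>
      have := hB _ _ h1 h2
      simp only [Prod.mk.injEq, and_true] at this
      rw [this]
    | left _ h2 =>
      have := hB _ _ h1 h2
      simp at this
    | stay _ h2 _ =>
      have := hB _ _ h1 h2
      simp at this
  | left h h1 =>
    cases h' with
    | acc h2 => exact absurd h2 h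
    | left _ h2 =>
      have := hB _ _ h1 h2
      simp only [Prod.mk.injEq, and_true] at this
      rw [this]
    | right _ h2 =>
      have := hB _ _ h1 h2
      simp at this
    | stay _ h2 _ =>
      have := hB _ _ h1 h2
      simp at this
  | stay h h1 _ ih =>
    cases h' with
    | acc h2 => exact absurd h2 h
    | left _ h2 =>
      have := hB _ _ h1 h2
      simp at this
    | right _ h2 =>
      have := hB _ _ h1 h2
      simp at this
    | stay _ h2 h3 =>
      have := hB _ _ h1 h2
      simp only [Prod.mk.injEq, and_true] at this
      subst this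
      exact ih h3

open Classical in
/-- the exit function -/
noncomputable def exitF (B : TwoNFA α (Fin k)) (σ : TapeSym α) (p : Fin k) :
    Option (Port (Option (Fin k))) :=
  if h : ∃ r, ExitR B σ p r then some h.choose else none

theorem exitF_eq_some {B : TwoNFA α (Fin k)} (hB : B.Deterministic) {σ : TapeSym α} {p : Fin k}
    {r : Port (Option (Fin k))} : exitF B σ p = some r ↔ ExitR B σ p r := by
  unfold exitF
  constructor
  · intro h
    split_ifs at h with h1
    rw [← Option.some.inj h]
    exact h1.choose_spec
  · intro h
    have h1 : ∃ r, ExitR B σ p r := ⟨r, h⟩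
    rw [dif_pos h1]
    exact congrArg some (h1.choose_spec.unique hB h)

/-- the cell function: a state and the direction in which the head enters the cell -/
noncomputable def cellF (B : TwoNFA α (Fin k)) : TapeSym α → CellFun (Option (Fin k))
  | .leftEnd, (some p, true) => open Classical in if p = B.init then exitF B .leftEnd p else none
  | .leftEnd, (some p, false) => exitF B .leftEnd p
  | .leftEnd, (none, _) => none
  | .letter a, (some p, _) => exitF B (.letter a) p
  | .letter _, (none, true) => some (none, true)
  | .letter _, (none, false) => none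
  | .rightEnd, (some p, true) => exitF B .rightEnd p
  | .rightEnd, (none, true) => some (none, true)
  | .rightEnd, (_, false) => none

/-- the cells of the tape -/
noncomputable def cells (B : TwoNFA α (Fin k)) (w : List α) : List (CellFun (Option (Fin k))) :=
  cellF B .leftEnd :: (w.map (fun a => cellF B (.letter a)) ++ [cellF B .rightEnd])

theorem cells_length (B : TwoNFA α (Fin k)) (w : List α) : (cells B w).length = w.length + 2 := by
  simp [cells]

theorem tape_rightEnd_iff (w : List α) (i : ℕ) : tape w i = TapeSym.rightEnd ↔ w.length + 1 ≤ i := by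
  cases i with
  | zero => simp [tape]
  | succ i =>
    simp only [tape]
    split_ifs with h
    · simp; omega
    · simp; omega

theorem tape_leftEnd_iff (w : List α) (i : ℕ) : tape w i = TapeSym.leftEnd ↔ i = 0 := by
  cases i with
  | zero => simp [tape]
  | succ i =>
    simp only [tape]
    split_ifs with h
    · simp
    · simp

theorem cells_getElem? (B : TwoNFA α (Fin k)) (w : List α) (i : ℕ) (hi : i ≤ w.length + 1) :
    (cells B w)[i]? = some (cellF B (tape w i)) := by
  cases i with
  | zero => rfl
  | succ i =>
    rw [cells, List.getElem?_cons_succ]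
    simp only [tape]
    split_ifs with h
    · rw [List.getElem?_append_left (by simpa using h)]
      simp [h]
    · have h1 : i = w.length := by omega
      subst h1
      rw [List.getElem?_append_right (by simp)]
      simp

theorem cells_getElem?_none (B : TwoNFA α (Fin k)) (w : List α) (i : ℕ) (hi : w.length + 2 ≤ i) :
    (cells B w)[i]? = none := by
  rw [List.getElem?_eq_none_iff, cells_length]
  exact hi

/-- a vertex entering cell `i` -/
theorem gfun_of_cell (B : TwoNFA α (Fin k)) (w : List α) {v : Vtx (Option (Fin k))} {i : ℕ}
    (hc : cellOf v = some i) (hi : i ≤ w.length + 1) :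
    gfun (cells B w) v = (cellF B (tape w i) v.2).map (lift i) := by
  simp only [gfun, hc, cells_getElem? B w i hi]

/-- the final vertex -/
def tvx (k : ℕ) (w : List α) : Vtx (Option (Fin k)) := (w.length + 2, none, true)

theorem leads_none (B : TwoNFA α (Fin k)) (w : List α) (i : ℕ) (h1 : 1 ≤ i)
    (h2 : i ≤ w.length + 2) : Leads (cells B w) (i, none, true) (tvx k w) := by
  obtain ⟨j, hj⟩ : ∃ j, i + j = w.length + 2 := ⟨w.length + 2 - i, by omega⟩
  induction j generalizing i with
  | zero =>
    have : i = w.length + 2 := by omega
    rw [this]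
    exact ReflTransGen.refl
  | succ j ih =>
    refine ReflTransGen.head ?_ (ih (i + 1) (by omega) (by omega) (by omega))
    show gfun (cells B w) (i, none, true) = some (i + 1, none, true)
    rw [gfun_of_cell B w (i := i) (by simp [cellOf]) (by omega)]
    have h3 : tape w i ≠ TapeSym.leftEnd := by
      rw [Ne, tape_leftEnd_iff]; omega
    cases hσ : tape w i with
    | leftEnd => exact absurd hσ h3
    | letter a => simp [cellF, lift]
    | rightEnd => simp [cellF, lift]

theorem cellF_true {B : TwoNFA α (Fin k)} {σ : TapeSym α} (h : σ ≠ TapeSym.leftEnd) (p : Fin k) :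
    cellF B σ (some p, true) = exitF B σ p := by
  cases σ with
  | leftEnd => exact absurd rfl h
  | letter a => rfl
  | rightEnd => rfl

theorem cellF_false {B : TwoNFA α (Fin k)} {σ : TapeSym α} (h : σ ≠ TapeSym.rightEnd)
    (p : Fin k) : cellF B σ (some p, false) = exitF B σ p := by
  cases σ with
  | leftEnd => rfl
  | letter a => rfl
  | rightEnd => exact absurd rfl h

theorem accepts_imp_leads {B : TwoNFA α (Fin k)} (hB : B.Deterministic) (w : List α)
    (h : B.Accepts w) : Leads (cells B w) (0, some B.init, true) (tvx k w) := by
  obtain ⟨q, hq, i, hr⟩ := h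
  have key : ∀ c : Fin k × ℕ, ReflTransGen (B.Step w) c (q, i) → c.2 ≤ w.length + 1 →
      ∃ r, ExitR B (tape w c.2) c.1 r ∧ Leads (cells B w) (lift c.2 r) (tvx k w) := by
    intro c hc
    induction hc using ReflTransGen.head_induction_on with
    | refl =>
      intro hle
      refine ⟨(none, true), ExitR.acc hq, ?_⟩
      exact leads_none B w (i + 1) (by omega) (by simpa using hle)
    | @head c c' h1 _ ih =>
      intro hle
      by_cases hacc : c.1 ∈ B.accept
      · exact ⟨(none, true), ExitR.acc hacc, leads_none B w (c.2 + 1) (by omega) (by omega)⟩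
      obtain ⟨m, hm, hc'⟩ := h1
      cases m with
      | left =>
        have h0 : c.2 ≠ 0 := by
          intro h0
          rw [h0] at hm
          exact B.leftEnd_ok _ _ hm
        have h2 : c'.2 = c.2 - 1 := hc'
        obtain ⟨r, hr1, hr2⟩ := ih (by omega)
        refine ⟨(some c'.1, false), ExitR.left hacc hm, ReflTransGen.head ?_ hr2⟩
        show gfun (cells B w) (lift c.2 (some c'.1, false)) = some (lift c'.2 r)
        rw [gfun_of_cell B w (i := c'.2) (by simp [cellOf, lift, h0, h2]) (by omega)]
        have h3 : tape w c'.2 ≠ TapeSym.rightEnd := by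
          rw [Ne, tape_rightEnd_iff]; omega
        show (cellF B (tape w c'.2) (some c'.1, false)).map (lift c'.2) = _
        rw [cellF_false h3, (exitF_eq_some hB).2 hr1]
        rfl
      | stay =>
        have h2 : c'.2 = c.2 := hc'
        obtain ⟨r, hr1, hr2⟩ := ih (by omega)
        rw [h2] at hr1 hr2
        exact ⟨r, ExitR.stay hacc hm hr1, hr2⟩
      | right =>
        have h0 : c.2 ≠ w.length + 1 := by
          intro h0
          have : tape w c.2 = TapeSym.rightEnd := by rw [tape_rightEnd_iff]; omega
          rw [this] at hm
          exact B.rightEnd_ok _ _ hm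
        have h2 : c'.2 = c.2 + 1 := hc'
        obtain ⟨r, hr1, hr2⟩ := ih (by omega)
        refine ⟨(some c'.1, true), ExitR.right hacc hm, ReflTransGen.head ?_ hr2⟩
        show gfun (cells B w) (lift c.2 (some c'.1, true)) = some (lift c'.2 r)
        rw [gfun_of_cell B w (i := c'.2) (by simp [cellOf, lift, h2]) (by omega)]
        have h3 : tape w c'.2 ≠ TapeSym.leftEnd := by
          rw [Ne, tape_leftEnd_iff]; omega
        show (cellF B (tape w c'.2) (some c'.1, true)).map (lift c'.2) = _
        rw [cellF_true h3, (exitF_eq_some hB).2 hr1]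
        rfl
  obtain ⟨r, hr1, hr2⟩ := key (B.init, 0) hr (Nat.zero_le _)
  refine ReflTransGen.head ?_ hr2
  show gfun (cells B w) (0, some B.init, true) = some (lift 0 r)
  rw [gfun_of_cell B w (i := 0) (by simp [cellOf]) (Nat.zero_le _)]
  show (cellF B TapeSym.leftEnd (some B.init, true)).map (lift 0) = _
  have hr1' : exitF B TapeSym.leftEnd B.init = some r := (exitF_eq_some hB).2 hr1
  simp only [cellF, if_true]
  rw [hr1']
  rfl

theorem ExitR.sound {B : TwoNFA α (Fin k)} {w : List α} {i : ℕ} {p : Fin k}
    {r : Port (Option (Fin k))} (h : ExitR B (tape w i) p r) :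
    (r = (none, true) ∧ ∃ q ∈ B.accept, ReflTransGen (B.Step w) (p, i) (q, i)) ∨
    (∃ q, r = (some q, true) ∧ ReflTransGen (B.Step w) (p, i) (q, i + 1)) ∨
    (∃ q, r = (some q, false) ∧ ReflTransGen (B.Step w) (p, i) (q, i - 1)) := by
  induction h with
  | acc h => exact Or.inl ⟨rfl, _, h, ReflTransGen.refl⟩
  | right h h' => exact Or.inr (Or.inl ⟨_, rfl, ReflTransGen.single ⟨Move.right, h', rfl⟩⟩)
  | left h h' => exact Or.inr (Or.inr ⟨_, rfl, ReflTransGen.single ⟨Move.left, h', rfl⟩⟩)
  | @stay p q r h h' _ ih =>
    have h1 : B.Step w (p, i) (q, i) := ⟨Move.stay, h', rfl⟩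
    rcases ih with ⟨h2, q', h3, h4⟩ | ⟨q', h2, h3⟩ | ⟨q', h2, h3⟩
    · exact Or.inl ⟨h2, q', h3, ReflTransGen.head h1 h4⟩
    · exact Or.inr (Or.inl ⟨q', h2, ReflTransGen.head h1 h3⟩)
    · exact Or.inr (Or.inr ⟨q', h2, ReflTransGen.head h1 h3⟩)

theorem cellF_some_exit {B : TwoNFA α (Fin k)} (hB : B.Deterministic) {σ : TapeSym α}
    {p : Fin k} {d : Bool} {r : Port (Option (Fin k))}
    (h : cellF B σ (some p, d) = some r) : ExitR B σ p r := by
  cases σ with
  | leftEnd =>
    cases d with
    | true =>
      simp only [cellF] at h
      split_ifs at h with h1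
      exact (exitF_eq_some hB).1 h
    | false => exact (exitF_eq_some hB).1 h
  | letter a => exact (exitF_eq_some hB).1 h
  | rightEnd =>
    cases d with
    | true => exact (exitF_eq_some hB).1 h
    | false => simp [cellF] at h

theorem leads_imp_accepts {B : TwoNFA α (Fin k)} (hB : B.Deterministic) (w : List α)
    (h : Leads (cells B w) (0, some B.init, true) (tvx k w)) : B.Accepts w := by
  have key : ∀ v : Vtx (Option (Fin k)), Leads (cells B w) v (tvx k w) → ∀ p : Fin k,
      v.2.1 = some p → ∃ q ∈ B.accept, ∃ i,
        ReflTransGen (B.Step w) (p, if v.2.2 then v.1 else v.1 - 1) (q, i) := by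
    intro v hv
    induction hv using ReflTransGen.head_induction_on with
    | refl =>
      intro p hp
      simp [tvx] at hp
    | @head v v' h1 _ ih =>
      intro p hp
      cases hc : cellOf v with
      | none => simp [gfun, hc] at h1
      | some i =>
        have hi : i ≤ w.length + 1 := by
          by_contra hcon
          have h2 := cells_getElem?_none B w i (by omega)
          simp [gfun, hc, h2] at h1
        rw [gfun_of_cell B w hc hi] at h1
        obtain ⟨b, q₀, d⟩ := v
        simp only at hp h1 ⊢
        subst hp
        have hib : (if d then b else b - 1) = i := by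
          simp only [cellOf] at hc
          cases d with
          | true => simpa using hc
          | false =>
            simp only [Bool.false_eq_true, if_false] at hc ⊢
            split_ifs at hc with h3
            simpa using hc
        rw [hib]
        obtain ⟨r, hr, rfl⟩ := Option.map_eq_some_iff.1 h1
        have h2 := cellF_some_exit hB hr
        rcases h2.sound with ⟨h3, q, h4, h5⟩ | ⟨q, h3, h4⟩ | ⟨q, h3, h4⟩
        · exact ⟨q, h4, i, h5⟩
        · subst h3
          obtain ⟨q', h5, j, h6⟩ := ih q rfl
          exact ⟨q', h5, j, h4.trans (by simpa [lift] using h6)⟩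
        · subst h3
          obtain ⟨q', h5, j, h6⟩ := ih q rfl
          exact ⟨q', h5, j, h4.trans (by simpa [lift] using h6)⟩
  obtain ⟨q, h1, i, h2⟩ := key _ h B.init rfl
  exact ⟨q, h1, i, h2⟩

theorem exists_scat_rep {α : Type} {k : ℕ} (B : TwoNFA α (Fin k)) (hB : B.Deterministic) :
    ∃ (R L : Type) (_ : Fintype R) (_ : Fintype L) (ψ : α → Scat R L) (ψl ψr : Scat R L) (s t : R ⊕ L),
      Fintype.card R + Fintype.card L = 4 * (k + 1) ∧
      ∀ w : List α, B.Accepts w ↔ (ψl * (w.map ψ).prod * ψr).perm t = s := by
  refine ⟨Port (Option (Fin k)), Port (Option (Fin k)), inferInstance, inferInstance,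
    fun a => cellScat (cellF B (.letter a)), cellScat (cellF B .leftEnd),
    cellScat (cellF B .rightEnd), Sum.inr (some B.init, true), Sum.inr (none, true), ?_, ?_⟩
  · simp [Fintype.card_prod]
    ring
  · intro w
    have hprod : cellScat (cellF B .leftEnd) *
        (w.map (fun a => cellScat (cellF B (.letter a)))).prod * cellScat (cellF B .rightEnd) =
        ((cells B w).map cellScat).prod := by
      rw [cells, List.map_cons, List.prod_cons, List.map_append, List.prod_append, List.map_map,
        mul_assoc]
      simp [Function.comp_def]
    rw [hprod, net (cells B w) (by simp [cells]) (some B.init) none]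
    · rw [cells_length]
      exact ⟨accepts_imp_leads hB w, leads_imp_accepts hB w⟩
    · intro g hg q hq
      have h1 : g = cellF B .leftEnd := by
        have : (cells B w)[0]? = some (cellF B .leftEnd) := rfl
        rw [this] at hg
        exact (Option.some.inj hg).symm
      subst h1
      cases q with
      | none => rfl
      | some p =>
        simp only [cellF]
        rw [if_neg]
        rintro rfl
        exact hq rfl
    · intro g hg q
      rw [cells_length] at hg
      have h2 := cells_getElem? B w (w.length + 1) (le_refl _)
      rw [show w.length + 2 - 1 = w.length + 1 by omega, h2] at hg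
      have h3 : tape w (w.length + 1) = TapeSym.rightEnd := (tape_rightEnd_iff w _).2 (le_refl _)
      rw [h3] at hg
      rw [← Option.some.inj hg]
      cases q with
      | none => rfl
      | some p => rfl

end Vale.Agent.P343
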