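import Vale.Agent.P343.Scat

/-!
# P343, module M2: channels of an idempotent (NOTES.md, section Channels, (2))
-/

namespace Vale.Agent.P343

namespace Scat

section ChannelAux

variable {R L : Type}

/-- the port `x` is transmitted by `e` -/
def Tr (e : Scat R L) (x : R ⊕ L) : Prop := side (e.perm x) = side x

/-- `τ` agrees with `e` at the reflected ports of `e` -/
def Abs (e τ : Scat R L) : Prop := ∀ x, ¬ Tr e x → τ.perm x = e.perm x

/-- `e⁻¹ τ` -/
def til (e τ : Scat R L) : Scat R L := ⟨τ.perm.trans e.perm.symm⟩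

theorem til_perm (e τ : Scat R L) (x : R ⊕ L) : (til e τ).perm x = e.perm.symm (τ.perm x) := rfl

theorem til_perm_eq {e τ : Scat R L} {x y : R ⊕ L} (h : (til e τ).perm x = y) :
    τ.perm x = e.perm y := by
  rw [← h, til_perm, Equiv.apply_symm_apply]

theorem abs_of_mul [Finite R] [Finite L] {e τ : Scat R L} (h : e * τ * e = τ) : Abs e τ := by
  intro x hx
  rcases x with r | l
  · have h1 : e * (τ * e) = τ := by rw [← mul_assoc, h]
    rcases hy : e.perm (Sum.inl r) with r' | l'
    · exact absurd (by simp [Tr, hy, side]) hx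
    · have := (mul_perm_iff e (τ * e) (Sum.inl r) (Sum.inr l')).2 (Reach.f_out hy)
      rwa [h1] at this
  · rcases hy : e.perm (Sum.inr l) with r' | l'
    · have := (mul_perm_iff (e * τ) e (Sum.inr l) (Sum.inl r')).2 (Reach.g_out hy)
      rwa [h] at this
    · exact absurd (by simp [Tr, hy, side]) hx

theorem walk {e σ τ : Scat R L} (hσ : Abs e σ) (hτ : Abs e τ) {z w : R ⊕ L} {b : Bool}
    {x y : R ⊕ L} (h : Reach e e b x y) (hb : b = !side x) (hz : e.perm z = y)
    (hw : Reach σ τ (!side z) z w) : Reach σ τ b x w := by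
  induction h with
  | @f_out x l h =>
    have hx : x = z := e.perm.injective (by rw [h, hz])
    rw [hb, hx]; exact hw
  | @f_step x y r h h' ih =>
    have hx : ¬ Tr e x := by
      unfold Tr
      rw [h]
      intro h2
      rw [← h2] at hb
      simp [side] at hb
    exact Reach.f_step (by rw [hσ x hx, h]) (ih (by simp [side]) hz)
  | @g_out x r h =>
    have hx : x = z := e.perm.injective (by rw [h, hz])
    rw [hb, hx]; exact hw
  | @g_step x y l h h' ih =>
    have hx : ¬ Tr e x := by
      unfold Tr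
      rw [h]
      intro h2
      rw [← h2] at hb
      simp [side] at hb
    exact Reach.g_step (by rw [hτ x hx, h]) (ih (by simp [side]) hz)

/-- the run follows the `e`-cycle back to a transmitted port -/
theorem walk_e [Finite R] [Finite L] {e σ τ : Scat R L} (he : e * e = e) (hσ : Abs e σ) (hτ : Abs e τ)
    {z w : R ⊕ L} (hz : Tr e z) (hw : Reach σ τ (!side z) z w) :
    Reach σ τ (!side (e.perm z)) (e.perm z) w := by
  have h0 : Reach e e (side z) z (e.perm z) :=
    (mul_perm_iff e e z (e.perm z)).1 (by rw [he])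
  have h1 : Reach e e (!side (e.perm z)) (e.perm z) (e.perm z) := by
    rcases z with r | l
    · rcases hy : e.perm (Sum.inl r) with r' | l'
      · rw [hy] at h0
        cases h0 with
        | f_step h h' =>
          rw [hy] at h
          simpa [h, side] using h'
      · simp [Tr, hy, side] at hz
    · rcases hy : e.perm (Sum.inr l) with r' | l'
      · simp [Tr, hy, side] at hz
      · rw [hy] at h0
        cases h0 with
        | g_step h h' =>
          rw [hy] at h
          simpa [h, side] using h'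
  exact walk hσ hτ h1 rfl rfl hw

theorem til_fix {e τ : Scat R L} (hτ : Abs e τ) {x : R ⊕ L} (hx : ¬ Tr e x) :
    (til e τ).perm x = x := by
  rw [til_perm, hτ x hx, Equiv.symm_apply_apply]

theorem til_tr {e τ : Scat R L} (hτ : Abs e τ) {x : R ⊕ L} (hx : Tr e x) :
    Tr e ((til e τ).perm x) := by
  by_contra hcon
  have h1 := til_fix hτ hcon
  have h2 := (til e τ).perm.injective h1
  rw [h2] at hcon
  exact hcon hx

theorem reach_til [Finite R] [Finite L] {e σ τ : Scat R L} (he : e * e = e) (hσ : Abs e σ)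
    (hτ : Abs e τ) {b : Bool} {x y : R ⊕ L} (h : Reach (til e σ) (til e τ) b x y) (hx : Tr e x) :
    Reach σ τ b x (e.perm y) := by
  induction h with
  | @f_out x l h =>
    have h1 := til_perm_eq h
    have h2 : Tr e (Sum.inr l) := by rw [← h]; exact til_tr hσ hx
    rcases hy : e.perm (Sum.inr l) with r' | l'
    · simp [Tr, hy, side] at h2
    · exact Reach.f_out (by rw [h1, hy])
  | @f_step x y r h h' ih =>
    have h1 := til_perm_eq h
    have h2 : Tr e (Sum.inl r) := by rw [← h]; exact til_tr hσ hx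
    rcases hy : e.perm (Sum.inl r) with r' | l'
    · refine Reach.f_step (r := r') (by rw [h1, hy]) ?_
      have := walk_e he hσ hτ h2 (ih h2)
      rwa [hy] at this
    · simp [Tr, hy, side] at h2
  | @g_out x r h =>
    have h1 := til_perm_eq h
    have h2 : Tr e (Sum.inl r) := by rw [← h]; exact til_tr hτ hx
    rcases hy : e.perm (Sum.inl r) with r' | l'
    · exact Reach.g_out (by rw [h1, hy])
    · simp [Tr, hy, side] at h2
  | @g_step x y l h h' ih =>
    have h1 := til_perm_eq h
    have h2 : Tr e (Sum.inr l) := by rw [← h]; exact til_tr hτ hx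
    rcases hy : e.perm (Sum.inr l) with r' | l'
    · simp [Tr, hy, side] at h2
    · refine Reach.g_step (l := l') (by rw [h1, hy]) ?_
      have := walk_e he hσ hτ h2 (ih h2)
      rwa [hy] at this

theorem til_mul [Finite R] [Finite L] {e σ τ : Scat R L} (he : e * e = e) (hσ : Abs e σ)
    (hτ : Abs e τ) (hστ : Abs e (σ * τ)) : til e (σ * τ) = til e σ * til e τ := by
  ext1
  refine Equiv.ext fun x => ?_
  symm
  by_cases hx : Tr e x
  · have h1 := (mul_perm_iff (til e σ) (til e τ) x _).1 rfl
    have h2 := (mul_perm_iff σ τ x _).2 (reach_til he hσ hτ h1 hx)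
    rw [til_perm, h2, Equiv.symm_apply_apply]
  · rw [til_fix hστ hx, mul_perm_iff]
    rcases x with r | l
    · exact Reach.f_step (til_fix hσ hx) (Reach.g_out (til_fix hτ hx))
    · exact Reach.g_step (til_fix hτ hx) (Reach.f_out (til_fix hσ hx))

/-- nothing is reflected -/
def NoRef (a : Scat R L) : Prop := ∀ x, side (a.perm x) = side x

theorem noRef_of_mul [Finite R] [Finite L] {a b : Scat R L} (h1 : a * b = 1) (h2 : b * a = 1) :
    NoRef a := by
  intro x
  rcases x with r | l
  · rcases hy : a.perm (Sum.inl r) with r' | l'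
    · simp [side]
    · have h3 := (mul_perm_iff a b (Sum.inl r) (Sum.inr l')).2 (Reach.f_out hy)
      rw [h1, one_perm] at h3
      simp at h3
  · rcases hy : a.perm (Sum.inr l) with r' | l'
    · have h3 := (mul_perm_iff b a (Sum.inr l) (Sum.inl r')).2 (Reach.g_out hy)
      rw [h2, one_perm] at h3
      simp at h3
    · simp [side]

/-- apply `a` at the ports of `R` -/
def onR (a : Scat R L) : R ⊕ L → R ⊕ L := Sum.elim (fun r => a.perm (Sum.inl r)) Sum.inr
/-- apply `a` at the ports of `L` -/
def onL (a : Scat R L) : R ⊕ L → R ⊕ L := Sum.elim Sum.inl (fun l => a.perm (Sum.inr l))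

theorem NoRef.inl {a : Scat R L} (ha : NoRef a) (r : R) : ∃ r', a.perm (Sum.inl r) = Sum.inl r' := by
  have h := ha (Sum.inl r)
  rcases hy : a.perm (Sum.inl r) with r' | l'
  · exact ⟨r', rfl⟩
  · simp [hy, side] at h

theorem NoRef.inr {a : Scat R L} (ha : NoRef a) (l : L) : ∃ l', a.perm (Sum.inr l) = Sum.inr l' := by
  have h := ha (Sum.inr l)
  rcases hy : a.perm (Sum.inr l) with r' | l'
  · simp [hy, side] at h
  · exact ⟨l', rfl⟩

theorem noRef_mul_perm [Finite R] [Finite L] {a : Scat R L} (ha : NoRef a) (t : Scat R L) (x : R ⊕ L) :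
    (a * t).perm x = onL a (t.perm (onR a x)) := by
  rw [mul_perm_iff]
  rcases x with r | l
  · obtain ⟨r', hr⟩ := ha.inl r
    refine Reach.f_step hr ?_
    simp only [onR, Sum.elim_inl, hr]
    rcases ht : t.perm (Sum.inl r') with s | l
    · exact Reach.g_out ht
    · obtain ⟨l', hl⟩ := ha.inr l
      refine Reach.g_step ht ?_
      simp only [onL, Sum.elim_inr, hl]
      exact Reach.f_out hl
  · simp only [onR, Sum.elim_inr, side]
    rcases ht : t.perm (Sum.inr l) with s | l1
    · exact Reach.g_out ht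
    · obtain ⟨l', hl⟩ := ha.inr l1
      refine Reach.g_step ht ?_
      simp only [onL, Sum.elim_inr, hl]
      exact Reach.f_out hl

theorem mul_noRef_perm [Finite R] [Finite L] {a : Scat R L} (ha : NoRef a) (t : Scat R L) (x : R ⊕ L) :
    (t * a).perm x = onR a (t.perm (onL a x)) := by
  rw [mul_perm_iff]
  rcases x with r | l
  · simp only [onL, Sum.elim_inl, side]
    rcases ht : t.perm (Sum.inl r) with s | l
    · obtain ⟨s', hs⟩ := ha.inl s
      refine Reach.f_step ht ?_
      simp only [onR, Sum.elim_inl, hs]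
      exact Reach.g_out hs
    · exact Reach.f_out ht
  · obtain ⟨l', hl⟩ := ha.inr l
    refine Reach.g_step hl ?_
    simp only [onL, Sum.elim_inr, hl]
    rcases ht : t.perm (Sum.inr l') with s | l
    · obtain ⟨s', hs⟩ := ha.inl s
      refine Reach.f_step ht ?_
      simp only [onR, Sum.elim_inl, hs]
      exact Reach.g_out hs
    · exact Reach.f_out ht

/-- the action of a group of scattering bijections -/
def gam {G : Type} [Group G] (a : G → Scat R L) (g : G) : R ⊕ L → R ⊕ L :=
  Sum.elim (fun r => (a g⁻¹).perm (Sum.inl r)) (fun l => (a g).perm (Sum.inr l))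

theorem gam_one {G : Type} [Group G] [Finite R] [Finite L] (a : G → Scat R L) (h1 : a 1 = 1) (x : R ⊕ L) :
    gam a 1 x = x := by
  rcases x with r | l
  · simp [gam, h1, one_perm]
  · simp [gam, h1, one_perm]

theorem gam_mul {G : Type} [Group G] [Finite R] [Finite L] (a : G → Scat R L)
    (hmul : ∀ g h, a (g * h) = a g * a h) (hn : ∀ g, NoRef (a g)) (g h : G) (x : R ⊕ L) :
    gam a (g * h) x = gam a g (gam a h x) := by
  rcases x with r | l
  · obtain ⟨r', hr⟩ := (hn h⁻¹).inl r
    obtain ⟨r'', hr'⟩ := (hn g⁻¹).inl r'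
    simp only [gam, Sum.elim_inl, mul_inv_rev, hmul, hr]
    rw [noRef_mul_perm (hn _)]
    simp [onR, onL, hr, hr']
  · obtain ⟨l', hl⟩ := (hn h).inr l
    obtain ⟨l'', hl'⟩ := (hn g).inr l'
    simp only [gam, Sum.elim_inr, hmul, hl]
    rw [noRef_mul_perm (hn _)]
    simp [onR, onL, hl]

/-- the group action as a homomorphism -/
def gamHom {G : Type} [Group G] [Finite R] [Finite L] (a : G → Scat R L) (h1 : a 1 = 1)
    (hmul : ∀ g h, a (g * h) = a g * a h) (hn : ∀ g, NoRef (a g)) : G →* Equiv.Perm (R ⊕ L) where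
  toFun g := ⟨gam a g, gam a g⁻¹, fun x => by rw [← gam_mul a hmul hn, inv_mul_cancel, gam_one a h1],
    fun x => by rw [← gam_mul a hmul hn, mul_inv_cancel, gam_one a h1]⟩
  map_one' := Equiv.ext fun x => gam_one a h1 x
  map_mul' g h := Equiv.ext fun x => gam_mul a hmul hn g h x

theorem gamHom_apply {G : Type} [Group G] [Finite R] [Finite L] (a : G → Scat R L) (h1 : a 1 = 1)
    (hmul : ∀ g h, a (g * h) = a g * a h) (hn : ∀ g, NoRef (a g)) (g : G) (x : R ⊕ L) :
    gamHom a h1 hmul hn g x = gam a g x := rfl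

theorem conj_perm {G : Type} [Group G] [Finite R] [Finite L] (a : G → Scat R L)
    (hn : ∀ g, NoRef (a g)) (t : Scat R L) (g : G) (x : R ⊕ L) :
    (a g⁻¹ * t * a g).perm x = gam a g⁻¹ (t.perm (gam a g x)) := by
  rw [mul_noRef_perm (hn g), noRef_mul_perm (hn g⁻¹)]
  have h1 : onR (a g⁻¹) (onL (a g) x) = gam a g x := by
    rcases x with r | l
    · simp [onR, onL, gam]
    · obtain ⟨l', hl⟩ := (hn g).inr l
      simp [onR, onL, gam, hl]
  rw [h1]
  rcases t.perm (gam a g x) with r | l
  · simp [onR, onL, gam]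
  · obtain ⟨l', hl⟩ := (hn g⁻¹).inr l
    simp [onR, onL, gam, hl]

end ChannelAux

open Classical in
/-- If `e` is idempotent and `φ : G → e S e` is multiplicative with `φ 1 = e` (`G` a group), then `G` acts on the ports by
permutations `ρ` such that conjugating `τ ∈ e S e` by `g` changes `τ` in at most `3 b` ports, where `b` is the number of ports
in the support of `τ` (relative to `e`) that are moved by `ρ g`. -/
theorem channel {R L : Type} [Fintype R] [Fintype L] (e : Scat R L) (he : e * e = e)
    {G : Type} [Group G] (φ : G → Scat R L) (h1 : φ 1 = e) (hmul : ∀ g h, φ (g * h) = φ g * φ h) :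
    ∃ ρ : G →* Equiv.Perm (R ⊕ L), ∀ τ : Scat R L, e * τ * e = τ → ∀ g : G,
      sdist τ (φ g⁻¹ * τ * φ g) ≤
        3 * (Finset.univ.filter (fun x : R ⊕ L => τ.perm x ≠ e.perm x ∧ ρ g x ≠ x)).card := by
  have hφe : ∀ g, e * φ g = φ g := fun g => by rw [← h1, ← hmul, one_mul]
  have hφe' : ∀ g, φ g * e = φ g := fun g => by rw [← h1, ← hmul, mul_one]
  have hφabs : ∀ g, Abs e (φ g) := fun g => abs_of_mul (by rw [hφe, hφe'])
  set a : G → Scat R L := fun g => til e (φ g) with ha
  have ha1 : a 1 = 1 := by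
    ext1
    refine Equiv.ext fun x => ?_
    simp only [ha, h1, til_perm, one_perm, Equiv.symm_apply_apply, Equiv.refl_apply]
  have hamul : ∀ g h, a (g * h) = a g * a h := by
    intro g h
    simp only [ha]
    rw [hmul, til_mul he (hφabs g) (hφabs h)]
    rw [← hmul]; exact hφabs _
  have hn : ∀ g, NoRef (a g) := by
    intro g
    refine noRef_of_mul (b := a g⁻¹) ?_ ?_
    · rw [← hamul, mul_inv_cancel, ha1]
    · rw [← hamul, inv_mul_cancel, ha1]
  refine ⟨gamHom a ha1 hamul hn, ?_⟩
  intro τ hτ g
  set γ : Equiv.Perm (R ⊕ L) := gamHom a ha1 hamul hn g with hγ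
  have hτe : e * τ = τ := by
    conv_lhs => rw [← hτ]
    rw [← mul_assoc, ← mul_assoc, he, hτ]
  have hτe' : τ * e = τ := by
    conv_lhs => rw [← hτ]
    rw [mul_assoc, he, hτ]
  have hτabs : Abs e τ := abs_of_mul hτ
  -- the conjugate
  have hc1 : Abs e (φ g⁻¹ * τ) := abs_of_mul (by rw [← mul_assoc, hφe, mul_assoc, hτe'])
  have hc2 : Abs e (φ g⁻¹ * τ * φ g) := abs_of_mul (by
    have h5 : e * (φ g⁻¹ * τ * φ g) * e = (e * φ g⁻¹) * τ * (φ g * e) := by simp only [mul_assoc]
    rw [h5, hφe, hφe'])
  have hc : til e (φ g⁻¹ * τ * φ g) = a g⁻¹ * til e τ * a g := by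
    rw [til_mul he hc1 (hφabs g) hc2, til_mul he (hφabs _) hτabs hc1]
  have hcx : ∀ x, (til e (φ g⁻¹ * τ * φ g)).perm x = γ.symm ((til e τ).perm (γ x)) := by
    intro x
    rw [hc, conj_perm a hn]
    rfl
  -- the counting
  set B : Finset (R ⊕ L) := Finset.univ.filter (fun x : R ⊕ L => τ.perm x ≠ e.perm x ∧ γ x ≠ x) with hB
  set t : Equiv.Perm (R ⊕ L) := (til e τ).perm with ht
  have hsupp : ∀ x, τ.perm x ≠ e.perm x ↔ t x ≠ x := by
    intro x
    have h6 : t x = e.perm.symm (τ.perm x) := rfl
    rw [h6, Ne, Ne, Equiv.symm_apply_eq]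
  have hBmem : ∀ x, x ∈ B ↔ t x ≠ x ∧ γ x ≠ x := by
    intro x
    rw [hB, Finset.mem_filter, hsupp]
    simp
  have hsub : Finset.univ.filter (fun x : R ⊕ L => τ.perm x ≠ (φ g⁻¹ * τ * φ g).perm x) ⊆
      (B ∪ B.image t.symm) ∪ B.image γ.symm := by
    intro x hx
    rw [Finset.mem_filter] at hx
    have hx2 : t x ≠ γ.symm (t (γ x)) := by
      intro hcon
      have hcon2 : (til e τ).perm x = (til e (φ g⁻¹ * τ * φ g)).perm x := by rw [hcx]; exact hcon
      apply hx.2
      rw [til_perm, til_perm] at hcon2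
      exact e.perm.symm.injective hcon2
    rw [Finset.mem_union, Finset.mem_union, Finset.mem_image, Finset.mem_image]
    by_cases h2 : t x = x
    · right
      refine ⟨γ x, (hBmem _).2 ⟨?_, ?_⟩, by simp⟩
      · intro h3
        rw [h3, h2] at hx2
        simp at hx2
      · intro h3
        have h4 : γ x = x := γ.injective h3
        rw [h4, h2] at hx2
        apply hx2
        rw [Equiv.eq_symm_apply, h4]
    · left
      by_cases h3 : γ x = x
      · right
        refine ⟨t x, (hBmem _).2 ⟨?_, ?_⟩, by simp⟩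
        · intro h4
          exact h2 (t.injective h4)
        · intro h4
          rw [h3] at hx2
          apply hx2
          rw [Equiv.eq_symm_apply, h4]
      · left
        exact (hBmem _).2 ⟨h2, h3⟩
  calc sdist τ (φ g⁻¹ * τ * φ g) ≤ ((B ∪ B.image t.symm) ∪ B.image γ.symm).card := by
        unfold sdist
        convert Finset.card_le_card hsub
    _ ≤ (B ∪ B.image t.symm).card + (B.image γ.symm).card := Finset.card_union_le _ _
    _ ≤ (B.card + (B.image t.symm).card) + (B.image γ.symm).card := by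
        have := Finset.card_union_le B (B.image t.symm)
        omega
    _ ≤ 3 * B.card := by
        have h4 := Finset.card_image_le (s := B) (f := t.symm)
        have h5 := Finset.card_image_le (s := B) (f := γ.symm)
        omega

end Scat

end Vale.Agent.P343
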