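import Mathlib

/-!
# P343: two-way automata.  Definitions used in the statement.
-/

namespace Vale.Agent.P343

/-- The symbols on the tape: the two endmarkers and the letters of the input alphabet. -/
inductive TapeSym (α : Type) where
  | leftEnd : TapeSym α
  | letter : α → TapeSym α
  | rightEnd : TapeSym α

/-- The three possible head moves. -/
inductive Move where
  | left : Move
  | stay : Move
  | right : Move

/-- New head position after a move from position `i`. -/
def Move.apply : Move → ℕ → ℕ
  | .left, i => i - 1
  | .stay, i => i
  | .right, i => i + 1

/-- A two-way nondeterministic finite automaton with input alphabet `α` and state set `Q`. -/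
structure TwoNFA (α Q : Type) where
  /-- the initial state -/
  init : Q
  /-- the accepting states -/
  accept : Set Q
  /-- the transitions: from a state and a scanned symbol to a new state and a head move -/
  trans : Q → TapeSym α → Set (Q × Move)
  /-- the head never moves left of the left endmarker -/
  leftEnd_ok : ∀ p q, (q, Move.left) ∉ trans p TapeSym.leftEnd
  /-- the head never moves right of the right endmarker -/
  rightEnd_ok : ∀ p q, (q, Move.right) ∉ trans p TapeSym.rightEnd

/-- The tape holding the input `w`: position `0` holds the left endmarker, positions `1, …, |w|`
hold the letters of `w`, and position `|w| + 1` holds the right endmarker. -/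
def tape {α : Type} (w : List α) : ℕ → TapeSym α
  | 0 => TapeSym.leftEnd
  | i + 1 => if h : i < w.length then TapeSym.letter (w[i]) else TapeSym.rightEnd

namespace TwoNFA

variable {α Q : Type}

/-- One computation step on input `w` between configurations (state, head position). -/
def Step (A : TwoNFA α Q) (w : List α) (c c' : Q × ℕ) : Prop :=
  ∃ m : Move, (c'.1, m) ∈ A.trans c.1 (tape w c.2) ∧ c'.2 = m.apply c.2

/-- `A` accepts `w` if some finite computation from the initial configuration (initial state, head on
the left endmarker) reaches an accepting state. -/
def Accepts (A : TwoNFA α Q) (w : List α) : Prop :=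
  ∃ q ∈ A.accept, ∃ i : ℕ, Relation.ReflTransGen (A.Step w) (A.init, 0) (q, i)

/-- A 2DFA: at most one transition for each state and symbol. -/
def Deterministic (A : TwoNFA α Q) : Prop :=
  ∀ q s, (A.trans q s).Subsingleton

/-- A one-way automaton: it never moves left. -/
def OneWay (A : TwoNFA α Q) : Prop :=
  ∀ p s q, (q, Move.left) ∉ A.trans p s

end TwoNFA

/-- Two automata over the same alphabet are equivalent if they accept the same words. -/
def SameLanguage {α Q Q' : Type} (A : TwoNFA α Q) (B : TwoNFA α Q') : Prop :=
  ∀ w : List α, A.Accepts w ↔ B.Accepts w

end Vale.Agent.P343
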