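import Mathlib

/-!
# P343: a second, independent set of definitions (deterministic two-way automata by an iterated step function)
-/

namespace Vale.Agent.P343.Machine

/-- The contents of a tape cell: an endmarker or a letter. -/
inductive Cell (α : Type) where
  | bra : Cell α
  | sym (a : α) : Cell α
  | ket : Cell α

/-- The head directions. -/
inductive Dir where
  | back : Dir
  | here : Dir
  | forth : Dir

/-- The tape with the left endmarker, the letters of `w` and the right endmarker. -/
def tapeOf {α : Type} (w : List α) : List (Cell α) := Cell.bra :: (w.map Cell.sym ++ [Cell.ket])

/-- Moving the head from position `i` on a tape with `n` cells; `none` if the head would leave the tape. -/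
def Dir.shift (n : ℕ) (i : ℕ) : Dir → Option ℕ
  | .back => if i = 0 then none else some (i - 1)
  | .here => some i
  | .forth => if i + 1 < n then some (i + 1) else none

/-- A deterministic two-way automaton with states `Q`: an initial state, the accepting states, and a partial
transition function. -/
structure DetTwoWay (α Q : Type) where
  /-- initial state -/
  init : Q
  /-- accepting states -/
  final : Set Q
  /-- the transition, if there is one, for a state and a scanned cell -/
  next : Q → Cell α → Option (Q × Dir)

namespace DetTwoWay

variable {α Q : Type}

/-- One step on the input `w` from the configuration (state, head position); `none` if the computation stops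
(no transition, or the head would leave the tape). -/
def step (B : DetTwoWay α Q) (w : List α) (c : Q × ℕ) : Option (Q × ℕ) :=
  ((tapeOf w)[c.2]?).bind fun s =>
    (B.next c.1 s).bind fun r => (r.2.shift (tapeOf w).length c.2).map fun j => (r.1, j)

/-- The configuration after `n` steps, if the computation lasts that long. -/
def config (B : DetTwoWay α Q) (w : List α) : ℕ → Option (Q × ℕ)
  | 0 => some (B.init, 0)
  | n + 1 => (B.config w n).bind (B.step w)

/-- The input is accepted if the state is accepting after some number of steps. -/
def Recognizes (B : DetTwoWay α Q) (w : List α) : Prop :=
  ∃ n c, B.config w n = some c ∧ c.1 ∈ B.final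

end DetTwoWay

end Vale.Agent.P343.Machine
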