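import Mathlib

/-!
# P343: the alphabet of relations, values of words, levels
-/

namespace Vale.Agent.P343

/-- The points: `none` is the point `0`; `some (j, none)` is `s_j`; `some (j, some (i, x))` is the point `c` number `x` of block `i` at level `j`. -/
abbrev Pt (d t : ℕ) : Type := Option (Fin d × Option (Fin t × Fin 5))

/-- Letters: relations on the set of points. -/
abbrev Letter (P : Type) : Type := P → P → Bool

/-- The value of a word: composition of its letters, as a relation. -/
def val {P : Type} : List (Letter P) → P → P → Prop
  | [] => Eq
  | a :: w => fun p r => ∃ q, a p q = true ∧ val w q r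

theorem val_append {P : Type} (u v : List (Letter P)) (p r : P) :
    val (u ++ v) p r ↔ ∃ q, val u p q ∧ val v q r := by
  induction u generalizing p with
  | nil => simp [val]
  | cons a u ih =>
    simp only [List.cons_append, val, ih]
    constructor
    · rintro ⟨q, hq, q', h1, h2⟩
      exact ⟨q', ⟨q, hq, h1⟩, h2⟩
    · rintro ⟨q', ⟨q, hq, h1⟩, h2⟩
      exact ⟨q, hq, q', h1, h2⟩

open Classical in
/-- the letter with a given relation -/
noncomputable def mkLetter {P : Type} (r : P → P → Prop) : Letter P := fun p q => decide (r p q)

theorem val_mkLetter {P : Type} (r : P → P → Prop) : val [mkLetter r] = r := by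
  funext p q
  simp [val, mkLetter]

variable {d t : ℕ}

/-- `p` is a point of a level `< j`. -/
def InB (j : ℕ) (p : Pt d t) : Prop := ∃ i : Fin d, ∃ x, p = some (i, x) ∧ i.val < j

/-- the identity on the points of levels `< j` -/
def DeadRel (j : ℕ) (p q : Pt d t) : Prop := p = q ∧ InB j p

/-- the identity on the points of levels `< j`, together with the pair `(0,0)` -/
def AliveRel (j : ℕ) (p q : Pt d t) : Prop := (p = q ∧ InB j p) ∨ (p = none ∧ q = none)

end Vale.Agent.P343
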