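import Vale.Agent.P343.Defs
import Vale.Agent.P343.Rel

/-!
# P343, module M7: one-way liveness has a small one-way automaton
-/

namespace Vale.Agent.P343

/-- the transitions of the one-way automaton, on the state set `Option P` -/
def owT {P : Type} (p0 : P) : Option P → TapeSym (Letter P) → Option P × Move → Prop
  | some p, .leftEnd, r => r = (some p, .right)
  | some p, .letter a, r => ∃ q, a p q = true ∧ r = (some q, .right)
  | some p, .rightEnd, r => p = p0 ∧ r = (none, .stay)
  | none, _, _ => False

/-- the automaton, transported to `Fin` -/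
def owA {P : Type} {n : ℕ} (E : Option P ≃ Fin n) (p0 : P) : TwoNFA (Letter P) (Fin n) where
  init := E (some p0)
  accept := {E none}
  trans := fun q s => {r | owT p0 (E.symm q) s (E.symm r.1, r.2)}
  leftEnd_ok := by
    intro p q h
    simp only [Set.mem_ofPred_eq] at h
    cases hp : E.symm p with
    | none => rw [hp] at h; exact h
    | some p' =>
      rw [hp] at h
      simp only [owT, Prod.mk.injEq] at h
      exact absurd h.2 (by simp)
  rightEnd_ok := by
    intro p q h
    simp only [Set.mem_ofPred_eq] at h
    cases hp : E.symm p with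
    | none => rw [hp] at h; exact h
    | some p' =>
      rw [hp] at h
      simp only [owT, Prod.mk.injEq] at h
      exact absurd h.2.2 (by simp)

theorem owA_oneWay {P : Type} {n : ℕ} (E : Option P ≃ Fin n) (p0 : P) : (owA E p0).OneWay := by
  intro p s q h
  simp only [owA, Set.mem_ofPred_eq] at h
  cases hp : E.symm p with
  | none => rw [hp] at h; exact h
  | some p' =>
    rw [hp] at h
    cases s with
    | leftEnd =>
      simp only [owT, Prod.mk.injEq] at h
      exact absurd h.2 (by simp)
    | letter a =>
      simp only [owT, Prod.mk.injEq] at h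
      obtain ⟨_, _, _, h2⟩ := h
      exact absurd h2 (by simp)
    | rightEnd =>
      simp only [owT, Prod.mk.injEq] at h
      exact absurd h.2.2 (by simp)

/-- the invariant of the computations -/
def owI {P : Type} (p0 : P) (w : List (Letter P)) : Option P → ℕ → Prop
  | none, _ => val w p0 p0
  | some q, 0 => q = p0
  | some q, i + 1 => i ≤ w.length ∧ val (w.take i) p0 q

theorem ow_take {P : Type} (w : List (Letter P)) {i : ℕ} (hi : i < w.length) (p q r : P)
    (h1 : val (w.take i) p q) (h2 : w[i] q r = true) : val (w.take (i + 1)) p r := by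
  rw [List.take_succ_eq_append_getElem hi, val_append]
  exact ⟨q, h1, r, h2, rfl⟩

theorem ow_take' {P : Type} (w : List (Letter P)) {i : ℕ} (hi : i < w.length) (p r : P)
    (h : val (w.take (i + 1)) p r) : ∃ q, val (w.take i) p q ∧ w[i] q r = true := by
  rw [List.take_succ_eq_append_getElem hi, val_append] at h
  obtain ⟨q, h1, q', h2, h3⟩ := h
  have h3' : q' = r := h3
  exact ⟨q, h1, h3' ▸ h2⟩

theorem owA_inv {P : Type} {n : ℕ} (E : Option P ≃ Fin n) (p0 : P) (w : List (Letter P))
    (c : Fin n × ℕ) (h : Relation.ReflTransGen ((owA E p0).Step w) ((owA E p0).init, 0) c) :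
    owI p0 w (E.symm c.1) c.2 := by
  induction h with
  | refl => simp [owA, owI]
  | @tail b c _ hs ih =>
    obtain ⟨bq, bi⟩ := b
    obtain ⟨cq, ci⟩ := c
    obtain ⟨m, hm, hc⟩ := hs
    simp only [owA, Set.mem_ofPred_eq] at hm hc ih ⊢
    cases hb : E.symm bq with
    | none => rw [hb] at hm; exact hm.elim
    | some p =>
      rw [hb] at hm ih
      cases bi with
      | zero =>
        have hm' : (E.symm cq, m) = (some p, Move.right) := hm
        rw [Prod.mk.injEq] at hm'
        have ih' : p = p0 := ih
        rw [hm'.1, hc, hm'.2]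
        change 0 ≤ w.length ∧ val (w.take 0) p0 p
        exact ⟨Nat.zero_le _, by rw [List.take_zero]; exact ih'.symm⟩
      | succ i =>
        obtain ⟨hi, hv⟩ : i ≤ w.length ∧ val (w.take i) p0 p := ih
        by_cases hlt : i < w.length
        · have ht : tape w (i + 1) = TapeSym.letter (w[i]) := by
            simp only [tape, dif_pos hlt]
          rw [ht] at hm
          obtain ⟨q, hq, hr⟩ : ∃ q, w[i] p q = true ∧ (E.symm cq, m) = (some q, Move.right) := hm
          rw [Prod.mk.injEq] at hr
          rw [hr.1, hc, hr.2]
          exact ⟨hlt, ow_take w hlt _ _ _ hv hq⟩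
        · have ht : tape w (i + 1) = TapeSym.rightEnd := by
            simp only [tape, dif_neg hlt]
          rw [ht] at hm
          obtain ⟨hp, hr⟩ : p = p0 ∧ (E.symm cq, m) = (none, Move.stay) := hm
          rw [Prod.mk.injEq] at hr
          rw [hr.1]
          have hil : i = w.length := by omega
          rw [hil, List.take_length, hp] at hv
          exact hv

theorem owA_reach {P : Type} {n : ℕ} (E : Option P ≃ Fin n) (p0 : P) (w : List (Letter P))
    (i : ℕ) (hi : i ≤ w.length) (q : P) (h : val (w.take i) p0 q) :
    Relation.ReflTransGen ((owA E p0).Step w) ((owA E p0).init, 0) (E (some q), i + 1) := by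
  induction i generalizing q with
  | zero =>
    rw [List.take_zero] at h
    have h' : p0 = q := h
    refine Relation.ReflTransGen.single ⟨Move.right, ?_, rfl⟩
    simp [owA, owT, tape, h']
  | succ i ih =>
    obtain ⟨p, h1, h2⟩ := ow_take' w (by omega) _ _ h
    refine (ih (by omega) p h1).tail ⟨Move.right, ?_, rfl⟩
    have hlt : i < w.length := by omega
    simp only [owA, Set.mem_ofPred_eq, tape, dif_pos hlt, Equiv.symm_apply_apply]
    exact ⟨q, h2, rfl⟩

/-- On a finite set `P` of `n` points, `{w : (p0,p0) ∈ val w}` is accepted by a one-way automaton with `n + 1` states. -/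
theorem exists_oneWay (P : Type) [Fintype P] (p0 : P) :
    ∃ A : TwoNFA (Letter P) (Fin (Fintype.card P + 1)), A.OneWay ∧
      ∀ w : List (Letter P), A.Accepts w ↔ val w p0 p0 := by
  classical
  have E : Option P ≃ Fin (Fintype.card P + 1) :=
    Fintype.equivFinOfCardEq (by rw [Fintype.card_option])
  refine ⟨owA E p0, owA_oneWay E p0, fun w => ⟨?_, ?_⟩⟩
  · rintro ⟨q, hq, i, hr⟩
    have hq' : q = E none := hq
    have := owA_inv E p0 w (q, i) hr
    rw [hq'] at this
    simpa [owI] using this
  · intro h
    have h1 := owA_reach E p0 w w.length le_rfl p0 (by rw [List.take_length]; exact h)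
    refine ⟨E none, rfl, w.length + 1, h1.tail ⟨Move.stay, ?_, rfl⟩⟩
    have hlt : ¬ w.length < w.length := lt_irrefl _
    simp only [owA, Set.mem_ofPred_eq, tape, dif_neg hlt, Equiv.symm_apply_apply]
    exact ⟨rfl, rfl⟩

end Vale.Agent.P343
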