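import Vale.Agent.P343.Recursion
import Vale.Agent.P343.Accept
import Vale.Agent.P343.OneWayNFA

/-!
# P343, module M8: final assembly
-/

namespace Vale.Agent.P343

/-- Number of states of the one-way automaton used for the parameter `a`. -/
theorem card_Pt (d t : ℕ) : Fintype.card (Pt d t) = d * (t * 5 + 1) + 1 := by
  simp [Pt, Fintype.card_option]

theorem state_bound (a : ℕ) (ha : 1 ≤ a) :
    Fintype.card (Pt (a + 1) (12 * (a * (a + 1)))) + 1 ≤ 500 * a ^ 3 := by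
  rw [card_Pt]
  obtain ⟨b, rfl⟩ : ∃ b, a = b + 1 := ⟨a - 1, by omega⟩
  ring_nf
  nlinarith [sq_nonneg b, Nat.zero_le b, Nat.zero_le (b ^ 2), Nat.zero_le (b ^ 3)]

/-- Exponential lower bound: for every `a ≥ 1` there is a one-way automaton with `n ≤ 500 a^3` states, all of whose equivalent
2DFAs have more than `2^a / 4 - 1` states. -/
theorem lower_bound (a : ℕ) (ha : 1 ≤ a) :
    ∃ (α : Type) (_ : Fintype α) (n : ℕ) (A : TwoNFA α (Fin n)), n ≤ 500 * a ^ 3 ∧ A.OneWay ∧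
      ∀ (k : ℕ) (B : TwoNFA α (Fin k)), B.Deterministic → SameLanguage A B → 2 ^ a < 4 * (k + 1) := by
  classical
  obtain ⟨A, hA, hAL⟩ := exists_oneWay (Pt (a + 1) (12 * (a * (a + 1)))) none
  refine ⟨Letter (Pt (a + 1) (12 * (a * (a + 1)))), inferInstance, _, A, state_bound a ha, hA, ?_⟩
  intro k B hB hAB
  by_contra hlt
  rw [not_lt] at hlt
  obtain ⟨R, L, _, _, ψ, ψl, ψr, s, t, hcard, hrep⟩ := exists_scat_rep B hB
  obtain ⟨v1, v0, h1, h0, heq⟩ := no_small_rep a (hcard.trans_le hlt) (by omega) ψ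
  have hv1 : A.Accepts v1 := by
    rw [hAL, h1]
    exact Or.inr ⟨rfl, rfl⟩
  have hv0 : ¬ A.Accepts v0 := by
    rw [hAL, h0]
    rintro ⟨-, h⟩
    exact not_InB_none _ h
  apply hv0
  rw [hAB v0, hrep v0]
  rw [hAB v1, hrep v1] at hv1
  have h2 : (v0.map ψ).prod = (v1.map ψ).prod := heq.symm
  rw [h2]
  exact hv1

/-- A polynomial in `500 a^3` is eventually smaller than `2^a / 4 - 1`. -/
theorem exists_large (p : Polynomial ℕ) : ∃ a : ℕ, 1 ≤ a ∧ ∀ n ≤ 500 * a ^ 3, 4 * (p.eval n + 1) ≤ 2 ^ a := by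
  -- p.eval n ≤ C * (n+1)^D
  obtain ⟨C, D, hCD⟩ : ∃ C D : ℕ, ∀ n : ℕ, p.eval n ≤ C * (n + 1) ^ D := by
    refine ⟨∑ i ∈ Finset.range (p.natDegree + 1), p.coeff i, p.natDegree, fun n => ?_⟩
    rw [Polynomial.eval_eq_sum_range, Finset.sum_mul]
    apply Finset.sum_le_sum
    intro i hi
    apply Nat.mul_le_mul_left
    calc n ^ i ≤ (n + 1) ^ i := Nat.pow_le_pow_left (by omega) i
      _ ≤ (n + 1) ^ p.natDegree := Nat.pow_le_pow_right (by omega) (by
        have := Finset.mem_range.mp hi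
        omega)
  have h1 : ∀ᶠ a : ℕ in Filter.atTop, 4 * (C * (500 * a ^ 3 + 1) ^ D + 1) ≤ 2 ^ a := by
    -- compare with a^(3D+1)
    have h2 : ∀ᶠ a : ℕ in Filter.atTop, a ^ (3 * D + 1) ≤ 2 ^ a := by
      have h3 := tendsto_pow_const_div_const_pow_of_one_lt (3 * D + 1) (r := (2 : ℝ)) (by norm_num)
      have h4 := h3.eventually (ge_mem_nhds (show (0 : ℝ) < 1 by norm_num))
      filter_upwards [h4] with a ha
      rw [div_le_one (by positivity)] at ha
      exact_mod_cast ha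
    have h5 : ∀ᶠ a : ℕ in Filter.atTop, 4 * (C * 501 ^ D + 1) ≤ a := Filter.eventually_ge_atTop _
    filter_upwards [h2, h5, Filter.eventually_ge_atTop 1] with a ha2 ha5 ha1
    have h6 : 500 * a ^ 3 + 1 ≤ 501 * a ^ 3 := by
      have : 1 ≤ a ^ 3 := Nat.one_le_pow _ _ ha1
      omega
    have h7 : (500 * a ^ 3 + 1) ^ D ≤ 501 ^ D * a ^ (3 * D) := by
      calc (500 * a ^ 3 + 1) ^ D ≤ (501 * a ^ 3) ^ D := Nat.pow_le_pow_left h6 D
        _ = 501 ^ D * a ^ (3 * D) := by rw [mul_pow, ← pow_mul]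
    have h8 : 1 ≤ a ^ (3 * D) := Nat.one_le_pow _ _ ha1
    calc 4 * (C * (500 * a ^ 3 + 1) ^ D + 1) ≤ 4 * (C * (501 ^ D * a ^ (3 * D)) + a ^ (3 * D)) := by
          gcongr
      _ = 4 * (C * 501 ^ D + 1) * a ^ (3 * D) := by ring
      _ ≤ a * a ^ (3 * D) := Nat.mul_le_mul_right _ ha5
      _ = a ^ (3 * D + 1) := by ring
      _ ≤ 2 ^ a := ha2
  obtain ⟨a, ha1, ha⟩ := (h1.and (Filter.eventually_ge_atTop 1)).exists
  refine ⟨a, ha, fun n hn => ?_⟩
  calc 4 * (p.eval n + 1) ≤ 4 * (C * (n + 1) ^ D + 1) := by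
        have := hCD n
        omega
    _ ≤ 4 * (C * (500 * a ^ 3 + 1) ^ D + 1) := by gcongr
    _ ≤ 2 ^ a := ha1

/-- Question (b), and a fortiori question (a), have negative answers: no polynomial bounds the number of states needed by a 2DFA to
simulate a one-way automaton. -/
theorem no_polynomial (p : Polynomial ℕ) :
    ∃ (α : Type) (_ : Fintype α) (n : ℕ) (A : TwoNFA α (Fin n)), A.OneWay ∧
      ∀ (k : ℕ) (B : TwoNFA α (Fin k)), B.Deterministic → SameLanguage A B → p.eval n < k := by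
  obtain ⟨a, ha, hlarge⟩ := exists_large p
  obtain ⟨α, hα, n, A, hn, hA, hB⟩ := lower_bound a ha
  refine ⟨α, hα, n, A, hA, fun k B hBd hAB => ?_⟩
  have h1 := hB k B hBd hAB
  have h2 := hlarge n hn
  omega

end Vale.Agent.P343
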