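import Vale.Agent.P343.Final
import Vale.Agent.P343.Defs2

/-!
# P343: the lower bound for the second set of definitions
-/

namespace Vale.Agent.P343

open Machine

/-- The lower bound, stated for the language of one-way liveness. -/
theorem lower_bound_lang (a : ℕ) (ha : 1 ≤ a) (k : ℕ)
    (B : TwoNFA (Letter (Pt (a + 1) (12 * (a * (a + 1))))) (Fin k)) (hB : B.Deterministic)
    (hAB : ∀ w, B.Accepts w ↔ val w none none) : 2 ^ a < 4 * (k + 1) := by
  classical
  by_contra hlt
  rw [not_lt] at hlt
  obtain ⟨R, L, _, _, ψ, ψl, ψr, s, t, hcard, hrep⟩ := exists_scat_rep B hB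
  obtain ⟨v1, v0, h1, h0, heq⟩ := no_small_rep a (hcard.trans_le hlt) (by omega) ψ
  have hv1 : B.Accepts v1 := by
    rw [hAB, h1]
    exact Or.inr ⟨rfl, rfl⟩
  have hv0 : ¬ B.Accepts v0 := by
    rw [hAB, h0]
    rintro ⟨-, h⟩
    exact not_InB_none _ h
  apply hv0
  rw [hrep v0]
  rw [hrep v1] at hv1
  have h2 : (v0.map ψ).prod = (v1.map ψ).prod := heq.symm
  rw [h2]
  exact hv1

namespace Machine

variable {α Q : Type}

/-- translation of tape symbols -/
def cv : TapeSym α → Cell α
  | .leftEnd => .bra
  | .letter a => .sym a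
  | .rightEnd => .ket

/-- translation of moves -/
def dv : Move → Dir
  | .left => .back
  | .stay => .here
  | .right => .forth

theorem tapeOf_length (w : List α) : (tapeOf w).length = w.length + 2 := by
  simp [tapeOf]

theorem tapeOf_get (w : List α) {i : ℕ} (hi : i < w.length + 2) :
    (tapeOf w)[i]? = some (cv (tape w i)) := by
  cases i with
  | zero => simp [tapeOf, tape, cv]
  | succ i =>
    by_cases h : i < w.length
    · rw [tapeOf, List.getElem?_cons_succ, List.getElem?_append_left (by simpa using h)]
      simp [tape, cv, h]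
    · have : i = w.length := by omega
      subst this
      simp [tapeOf, tape, cv]

/-- the two-way automaton in the sense of the first set of definitions -/
def conv (B : DetTwoWay α Q) : TwoNFA α Q where
  init := B.init
  accept := B.final
  trans := fun q s => {r | B.next q (cv s) = some (r.1, dv r.2) ∧
    ¬ (s = TapeSym.leftEnd ∧ r.2 = Move.left) ∧ ¬ (s = TapeSym.rightEnd ∧ r.2 = Move.right)}
  leftEnd_ok := by
    intro p q h
    exact h.2.1 ⟨rfl, rfl⟩
  rightEnd_ok := by
    intro p q h
    exact h.2.2 ⟨rfl, rfl⟩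

theorem dv_inj : Function.Injective dv := by
  intro a b h
  cases a <;> cases b <;> simp_all [dv]

theorem conv_det (B : DetTwoWay α Q) : (conv B).Deterministic := by
  intro q s r hr r' hr'
  have h := hr.1.symm.trans hr'.1
  rw [Option.some.injEq, Prod.mk.injEq] at h
  exact Prod.ext h.1 (dv_inj h.2)

theorem tape_eq_left (w : List α) {i : ℕ} : tape w i = TapeSym.leftEnd ↔ i = 0 := by
  cases i with
  | zero => simp [tape]
  | succ i => by_cases h : i < w.length <;> simp [tape, h]

theorem tape_eq_right (w : List α) {i : ℕ} (hi : i < w.length + 2) :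
    tape w i = TapeSym.rightEnd ↔ i = w.length + 1 := by
  cases i with
  | zero => simp [tape]
  | succ i => by_cases h : i < w.length <;> simp [tape, h] <;> omega

theorem step_iff (B : DetTwoWay α Q) (w : List α) (c c' : Q × ℕ) (hc : c.2 < w.length + 2) :
    B.step w c = some c' ↔ (conv B).Step w c c' := by
  obtain ⟨q, i⟩ := c
  obtain ⟨q', j⟩ := c'
  simp only at hc
  simp only [DetTwoWay.step, tapeOf_get w hc, Option.bind_some, Option.bind_eq_some_iff, Option.map_eq_some_iff,
    Prod.mk.injEq, tapeOf_length]
  constructor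
  · rintro ⟨⟨q1, d⟩, h1, j1, h2, rfl, rfl⟩
    cases d with
    | back =>
      refine ⟨Move.left, ⟨h1, ?_, by simp⟩, ?_⟩
      · rintro ⟨h3, -⟩
        rw [tape_eq_left] at h3
        have h3' : i = 0 := h3
        simp only [Dir.shift, h3', if_true] at h2
        exact absurd h2 (by simp)
      · simp only [Dir.shift] at h2
        split_ifs at h2
        simpa [Move.apply] using h2.symm
    | here =>
      refine ⟨Move.stay, ⟨h1, by simp, by simp⟩, ?_⟩
      simpa [Dir.shift, Move.apply] using h2.symm
    | forth =>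
      refine ⟨Move.right, ⟨h1, by simp, ?_⟩, ?_⟩
      · rintro ⟨h3, -⟩
        rw [tape_eq_right w hc] at h3
        have h3' : i = w.length + 1 := h3
        simp only [Dir.shift, h3'] at h2
        rw [if_neg (by omega)] at h2
        exact absurd h2 (by simp)
      · simp only [Dir.shift] at h2
        split_ifs at h2
        simpa [Move.apply] using h2.symm
  · rintro ⟨m, ⟨h1, h2, h3⟩, h4⟩
    simp only at h1 h2 h3 h4
    refine ⟨(q', dv m), h1, j, ?_, rfl, rfl⟩
    cases m with
    | left =>
      have h5 : i ≠ 0 := fun h => h2 ⟨(tape_eq_left w).mpr h, rfl⟩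
      simp only [dv, Dir.shift, if_neg h5, h4, Move.apply]
    | stay => simp only [dv, Dir.shift, h4, Move.apply]
    | right =>
      have h5 : i ≠ w.length + 1 := fun h => h3 ⟨(tape_eq_right w hc).mpr h, rfl⟩
      simp only [dv, Dir.shift, h4, Move.apply]
      rw [if_pos (by omega)]

theorem step_lt (B : DetTwoWay α Q) (w : List α) (c c' : Q × ℕ) (hc : c.2 < w.length + 2)
    (h : (conv B).Step w c c') : c'.2 < w.length + 2 := by
  rw [← step_iff B w c c' hc] at h
  obtain ⟨q, i⟩ := c
  obtain ⟨q', j⟩ := c'
  simp only [DetTwoWay.step, tapeOf_get w hc, Option.bind_some, Option.bind_eq_some_iff, Option.map_eq_some_iff,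
    Prod.mk.injEq, tapeOf_length] at h hc ⊢
  obtain ⟨⟨q1, d⟩, h1, j1, h2, rfl, rfl⟩ := h
  cases d with
  | back => simp only [Dir.shift] at h2; split_ifs at h2; simp at h2; omega
  | here => simp only [Dir.shift] at h2; simp at h2; omega
  | forth => simp only [Dir.shift] at h2; split_ifs at h2; simp at h2; omega

theorem config_lt (B : DetTwoWay α Q) (w : List α) (n : ℕ) (c : Q × ℕ) (h : B.config w n = some c) :
    c.2 < w.length + 2 := by
  induction n generalizing c with
  | zero =>
    simp only [DetTwoWay.config, Option.some.injEq] at h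
    rw [← h]; simp
  | succ n ih =>
    simp only [DetTwoWay.config, Option.bind_eq_some_iff] at h
    obtain ⟨c1, h1, h2⟩ := h
    exact step_lt B w c1 c (ih c1 h1) ((step_iff B w c1 c (ih c1 h1)).mp h2)

theorem recognizes_iff (B : DetTwoWay α Q) (w : List α) : B.Recognizes w ↔ (conv B).Accepts w := by
  constructor
  · rintro ⟨n, c, hn, hc⟩
    refine ⟨c.1, hc, c.2, ?_⟩
    clear hc
    induction n generalizing c with
    | zero =>
      simp only [DetTwoWay.config, Option.some.injEq] at hn
      rw [← hn]
      exact Relation.ReflTransGen.refl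
    | succ n ih =>
      have hn' := hn
      simp only [DetTwoWay.config, Option.bind_eq_some_iff] at hn
      obtain ⟨c1, h1, h2⟩ := hn
      exact (ih c1 h1).tail ((step_iff B w c1 c (config_lt B w n c1 h1)).mp h2)
  · rintro ⟨q, hq, i, h⟩
    have key : ∀ c, Relation.ReflTransGen ((conv B).Step w) ((conv B).init, 0) c →
        ∃ n, B.config w n = some c := by
      intro c hc
      induction hc with
      | refl => exact ⟨0, rfl⟩
      | tail _ hs ih =>
        obtain ⟨n, hn⟩ := ih
        refine ⟨n + 1, ?_⟩
        simp only [DetTwoWay.config, Option.bind_eq_some_iff]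
        exact ⟨_, hn, (step_iff B w _ _ (config_lt B w n _ hn)).mpr hs⟩
    obtain ⟨n, hn⟩ := key _ h
    exact ⟨n, (q, i), hn, hq⟩

end Machine

/-- relabelling the states of a two-way automaton -/
def TwoNFA.relabel {α Q Q' : Type} (A : TwoNFA α Q) (e : Q ≃ Q') : TwoNFA α Q' where
  init := e A.init
  accept := {q | e.symm q ∈ A.accept}
  trans := fun q s => {r | (e.symm r.1, r.2) ∈ A.trans (e.symm q) s}
  leftEnd_ok := fun _ _ h => A.leftEnd_ok _ _ h
  rightEnd_ok := fun _ _ h => A.rightEnd_ok _ _ h

theorem TwoNFA.relabel_det {α Q Q' : Type} (A : TwoNFA α Q) (e : Q ≃ Q') (hA : A.Deterministic) :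
    (A.relabel e).Deterministic := by
  intro q s r hr r' hr'
  have h := hA _ _ hr hr'
  rw [Prod.mk.injEq] at h
  exact Prod.ext (e.symm.injective h.1) h.2

theorem TwoNFA.relabel_accepts {α Q Q' : Type} (A : TwoNFA α Q) (e : Q ≃ Q') (w : List α) :
    (A.relabel e).Accepts w ↔ A.Accepts w := by
  have key : ∀ c c' : Q × ℕ, (A.relabel e).Step w (e c.1, c.2) (e c'.1, c'.2) ↔ A.Step w c c' := by
    intro c c'
    simp [TwoNFA.Step, TwoNFA.relabel]
  constructor
  · rintro ⟨q, hq, i, h⟩
    refine ⟨e.symm q, hq, i, ?_⟩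
    have h1 : ∀ c : Q' × ℕ, Relation.ReflTransGen ((A.relabel e).Step w) ((A.relabel e).init, 0) c →
        Relation.ReflTransGen (A.Step w) (A.init, 0) (e.symm c.1, c.2) := by
      intro c hc
      induction hc with
      | refl => simp only [TwoNFA.relabel, Equiv.symm_apply_apply]; exact Relation.ReflTransGen.refl
      | @tail b c _ hs ih =>
        refine ih.tail ?_
        rw [← key]
        simpa using hs
    exact h1 _ h
  · rintro ⟨q, hq, i, h⟩
    refine ⟨e q, by simpa [TwoNFA.relabel] using hq, i, ?_⟩
    have h1 : ∀ c : Q × ℕ, Relation.ReflTransGen (A.Step w) (A.init, 0) c →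
        Relation.ReflTransGen ((A.relabel e).Step w) ((A.relabel e).init, 0) (e c.1, c.2) := by
      intro c hc
      induction hc with
      | refl => exact Relation.ReflTransGen.refl
      | @tail b c _ hs ih => exact ih.tail ((key _ _).mpr hs)
    exact h1 _ h

/-- The lower bound for the deterministic machines of the second set of definitions. -/
theorem lower_bound_machine (a : ℕ) (ha : 1 ≤ a) (Q : Type) [Fintype Q]
    (B : DetTwoWay (Letter (Pt (a + 1) (12 * (a * (a + 1))))) Q)
    (hAB : ∀ w, B.Recognizes w ↔ val w none none) : 2 ^ a < 4 * (Fintype.card Q + 1) := by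
  classical
  refine lower_bound_lang a ha (Fintype.card Q) ((conv B).relabel (Fintype.equivFin Q))
    ((conv B).relabel_det _ (conv_det B)) (fun w => ?_)
  rw [TwoNFA.relabel_accepts, ← recognizes_iff, hAB]

/-- one-way liveness as a one-way nondeterministic automaton of Mathlib -/
def liveNFA (P : Type) (p0 : P) : NFA (Letter P) P where
  step := fun p a => {q | a p q = true}
  start := {p0}
  accept := {p0}

theorem liveNFA_eval {P : Type} (p0 : P) (w : List (Letter P)) (q : P) :
    q ∈ (liveNFA P p0).eval w ↔ val w p0 q := by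
  induction w using List.reverseRecOn generalizing q with
  | nil =>
    simp only [NFA.eval_nil, val]
    exact ⟨fun h => (Set.mem_singleton_iff.mp h).symm, fun h => h.symm⟩
  | append_singleton w a ih =>
    rw [NFA.eval_append_singleton, NFA.mem_stepSet, val_append]
    constructor
    · rintro ⟨p, hp, hq⟩
      exact ⟨p, (ih p).mp hp, q, hq, rfl⟩
    · rintro ⟨p, hp, q', hq, rfl⟩
      exact ⟨p, (ih p).mpr hp, hq⟩

theorem liveNFA_accepts {P : Type} (p0 : P) (w : List (Letter P)) :
    w ∈ (liveNFA P p0).accepts ↔ val w p0 p0 := by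
  constructor
  · rintro ⟨S, hS, h⟩
    have : S = p0 := hS
    subst this
    exact (liveNFA_eval _ w _).mp h
  · intro h
    exact ⟨p0, rfl, (liveNFA_eval _ w _).mpr h⟩

end Vale.Agent.P343
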