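import Mathlib

/-!
# P343, module G1: subgroups of small index of `A^t`, `A` perfect (NOTES.md, Prop G (i))
-/

namespace Vale.Agent.P343

open scoped commutatorElement

/-- functions supported on the first `k` places in the order given by `σ` -/
def suppLt {A : Type*} [Group A] {t : ℕ} (σ : Fin t ≃ Fin t) (k : ℕ) : Subgroup (Fin t → A) where
  carrier := {f | ∀ l, k ≤ (σ l).val → f l = 1}
  mul_mem' := by
    intro a b ha hb l hl
    rw [Pi.mul_apply, ha l hl, hb l hl, one_mul]
  one_mem' := fun l _ => rfl
  inv_mem' := by
    intro a ha l hl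
    rw [Pi.inv_apply, ha l hl, inv_one]

theorem mem_suppLt {A : Type*} [Group A] {t : ℕ} (σ : Fin t ≃ Fin t) (k : ℕ) (f : Fin t → A) :
    f ∈ suppLt σ k ↔ ∀ l, k ≤ (σ l).val → f l = 1 := Iff.rfl

instance suppLt_normal {A : Type*} [Group A] {t : ℕ} (σ : Fin t ≃ Fin t) (k : ℕ) :
    (suppLt (A := A) σ k).Normal := by
  refine ⟨fun f hf g l hl => ?_⟩
  rw [Pi.mul_apply, Pi.mul_apply, Pi.inv_apply, hf l hl, mul_one, mul_inv_cancel]

theorem suppLt_mono {A : Type*} [Group A] {t : ℕ} (σ : Fin t ≃ Fin t) {k k' : ℕ} (h : k ≤ k') :
    suppLt (A := A) σ k ≤ suppLt σ k' := fun _ hf l hl => hf l (h.trans hl)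

open Classical in
theorem chain_pi {A : Type*} [Group A] [Finite A] {t s : ℕ} (σ : Fin t ≃ Fin t)
    (H : Subgroup (Fin t → A)) (hidx : H.index ≤ 2 ^ s) :
    ∃ B : Finset (Fin t), B.card ≤ s ∧ ∀ i, i ∉ B → ∀ a : A,
      ∃ h ∈ H, h i = a ∧ ∀ l, (σ i).val < (σ l).val → h l = 1 := by
  set K : ℕ → Subgroup (Fin t → A) := fun k => H ⊔ suppLt σ k with hK
  have hmono : ∀ k, K k ≤ K (k + 1) := fun k => sup_le_sup_left (suppLt_mono σ (Nat.le_succ k)) H
  let B : Finset (Fin t) := Finset.univ.filter fun i => K (σ i).val ≠ K ((σ i).val + 1)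
  have key : ∀ k, k ≤ t → 2 ^ (B.filter fun i => (σ i).val < k).card * (K k).index ≤ H.index := by
    intro k
    induction k with
    | zero =>
      intro _
      have h1 : (B.filter fun i => (σ i).val < 0) = ∅ := by simp
      have h2 : K 0 = H := by
        refine le_antisymm (sup_le le_rfl fun f hf => ?_) le_sup_left
        have : f = 1 := funext fun l => hf l (Nat.zero_le _)
        rw [this]; exact one_mem _
      rw [h1, h2]; simp
    | succ k ih =>
      intro hk
      have ih := ih (Nat.le_of_succ_le hk)
      set i0 : Fin t := σ.symm ⟨k, hk⟩ with hi0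
      have hσ : (σ i0).val = k := by rw [hi0, Equiv.apply_symm_apply]
      have hpos : 0 < (K (k + 1)).index := Nat.pos_of_ne_zero Subgroup.index_ne_zero_of_finite
      by_cases hcase : K k = K (k + 1)
      · have h1 : (B.filter fun i => (σ i).val < k + 1) = B.filter fun i => (σ i).val < k := by
          ext i
          simp only [Finset.mem_filter, and_congr_right_iff]
          intro hi
          constructor
          · intro h
            rcases Nat.lt_succ_iff_lt_or_eq.1 h with h | h
            · exact h
            · exfalso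
              have := (Finset.mem_filter.1 hi).2
              rw [h] at this
              exact this hcase
          · intro h; omega
        rw [h1, ← hcase]
        exact ih
      · have h1 : (B.filter fun i => (σ i).val < k + 1) ⊆
            insert i0 (B.filter fun i => (σ i).val < k) := by
          intro i hi
          rw [Finset.mem_filter] at hi
          rw [Finset.mem_insert, Finset.mem_filter]
          rcases Nat.lt_succ_iff_lt_or_eq.1 hi.2 with h | h
          · exact Or.inr ⟨hi.1, h⟩
          · left
            apply σ.injective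
            apply Fin.ext
            rw [h, hσ]
        have h2 : (B.filter fun i => (σ i).val < k + 1).card ≤
            (B.filter fun i => (σ i).val < k).card + 1 :=
          (Finset.card_le_card h1).trans (Finset.card_insert_le _ _)
        have h3 : 2 * (K (k + 1)).index ≤ (K k).index := by
          rw [← Subgroup.relIndex_mul_index (hmono k)]
          refine Nat.mul_le_mul_right _ ?_
          have h4 : (K k).relIndex (K (k + 1)) ≠ 1 := by
            rw [Ne, Subgroup.relIndex_eq_one]
            exact fun h => hcase (le_antisymm (hmono k) h)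
          have h5 : (K k).relIndex (K (k + 1)) ≠ 0 := by
            intro h0
            have h6 := Subgroup.relIndex_mul_index (hmono k)
            rw [h0, zero_mul] at h6
            exact Subgroup.index_ne_zero_of_finite h6.symm
          omega
        calc 2 ^ (B.filter fun i => (σ i).val < k + 1).card * (K (k + 1)).index
            ≤ 2 ^ ((B.filter fun i => (σ i).val < k).card + 1) * (K (k + 1)).index :=
              Nat.mul_le_mul_right _ (Nat.pow_le_pow_right (by norm_num) h2)
          _ = 2 ^ (B.filter fun i => (σ i).val < k).card * (2 * (K (k + 1)).index) := by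
              rw [pow_succ]; ring
          _ ≤ 2 ^ (B.filter fun i => (σ i).val < k).card * (K k).index :=
              Nat.mul_le_mul_left _ h3
          _ ≤ H.index := ih
  refine ⟨B, ?_, ?_⟩
  · have h1 := key t le_rfl
    have h2 : (B.filter fun i => (σ i).val < t) = B := by
      rw [Finset.filter_true_of_mem]; intro i _; exact (σ i).isLt
    rw [h2] at h1
    have hpos : 0 < (K t).index := Nat.pos_of_ne_zero Subgroup.index_ne_zero_of_finite
    have h3 : 2 ^ B.card ≤ 2 ^ s :=
      (Nat.le_mul_of_pos_right _ hpos).trans (h1.trans hidx)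
    exact (Nat.pow_le_pow_iff_right (by norm_num)).1 h3
  · intro i hi a
    have h1 : K (σ i).val = K ((σ i).val + 1) := by
      by_contra hne
      exact hi (Finset.mem_filter.2 ⟨Finset.mem_univ _, hne⟩)
    have h2 : Pi.mulSingle i a ∈ K (σ i).val := by
      rw [h1]
      refine Subgroup.mem_sup_right fun l hl => ?_
      have : l ≠ i := by rintro rfl; omega
      exact Pi.mulSingle_eq_of_ne this _
    obtain ⟨h, hh, b, hb, hhb⟩ := Subgroup.mem_sup_of_normal_right.1 h2
    refine ⟨h, hh, ?_, ?_⟩
    · have h3 := congrFun hhb i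
      rw [Pi.mul_apply, hb i le_rfl, mul_one, Pi.mulSingle_eq_same] at h3
      exact h3
    · intro l hl
      have h3 := congrFun hhb l
      have : l ≠ i := by rintro rfl; omega
      rw [Pi.mul_apply, hb l hl.le, mul_one, Pi.mulSingle_eq_of_ne this] at h3
      exact h3

open Classical in
theorem subgroup_pi_contains {A : Type} [Group A] [Finite A] (hA : commutator A = ⊤) (t : ℕ)
    (H : Subgroup (Fin t → A)) (k : ℕ) (hH : H.index ≤ 2 ^ k) :
    (Finset.univ.filter (fun i : Fin t => ¬ ∀ a : A, Pi.mulSingle i a ∈ H)).card ≤ 2 * k := by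
  obtain ⟨B, hB, h1⟩ := chain_pi (Equiv.refl _) H hH
  obtain ⟨B', hB', h2⟩ := chain_pi (Fin.revPerm (n := t)) H hH
  have hsub : (Finset.univ.filter (fun i : Fin t => ¬ ∀ a : A, Pi.mulSingle i a ∈ H)) ⊆ B ∪ B' := by
    intro i hi
    rw [Finset.mem_filter] at hi
    by_contra hcon
    rw [Finset.mem_union, not_or] at hcon
    apply hi.2
    have key : (⊤ : Subgroup A) ≤ H.comap (MonoidHom.mulSingle (fun _ : Fin t => A) i) := by
      rw [← hA, commutator_def, Subgroup.commutator_le]
      intro a _ b _
      obtain ⟨f, hf, hfi, hfl⟩ := h1 i hcon.1 a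
      obtain ⟨g, hg, hgi, hgl⟩ := h2 i hcon.2 b
      have h3 : MonoidHom.mulSingle (fun _ : Fin t => A) i ⁅a, b⁆ = ⁅f, g⁆ := by
        funext l
        rw [commutatorElement_def, commutatorElement_def]
        change (Pi.mulSingle i (a * b * a⁻¹ * b⁻¹) : Fin t → A) l =
          f l * g l * (f l)⁻¹ * (g l)⁻¹
        rcases lt_trichotomy i l with h | h | h
        · rw [Pi.mulSingle_eq_of_ne h.ne', hfl l h]; simp
        · subst h
          rw [Pi.mulSingle_eq_same, hfi, hgi]
        · rw [Pi.mulSingle_eq_of_ne h.ne, hgl l ?_]
          · simp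
          · have : i.val > l.val := h
            simp only [Fin.revPerm_apply, Fin.val_rev]
            omega
      rw [Subgroup.mem_comap, h3, commutatorElement_def]
      exact mul_mem (mul_mem (mul_mem hf hg) (inv_mem hf)) (inv_mem hg)
    intro a
    exact key (Subgroup.mem_top a)
  calc _ ≤ (B ∪ B').card := Finset.card_le_card hsub
    _ ≤ B.card + B'.card := Finset.card_union_le _ _
    _ ≤ 2 * k := by omega

end Vale.Agent.P343
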