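import Mathlib

/-!
# P343, module G2: chain of a nilpotent normal subgroup and Lemma A (NOTES.md, Prop G (ii))
-/

namespace Vale.Agent.P343

open Subgroup MulAction
open scoped commutatorElement

/-- A perfect subgroup acting on an invariant set through a nilpotent subgroup acts trivially. -/
theorem perfect_nilp_trivial {G : Type*} [Group G] {Ω : Type*} [MulAction G Ω]
    {H M : Subgroup G} {O : Set Ω}
    (hH : ⁅H, H⁆ = H) (hM : Group.IsNilpotent M)
    (hO : ∀ m ∈ M, ∀ w ∈ O, m • w ∈ O)
    (hact : ∀ h ∈ H, ∃ m ∈ M, ∀ w ∈ O, h • w = m • w) :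
    ∀ h ∈ H, ∀ w ∈ O, h • w = w := by
  obtain ⟨n, hn⟩ := (Subgroup.isNilpotent_iff_lowerCentralSeries M).1 hM
  have hle : ∀ n, M.lowerCentralSeries n ≤ M := fun n =>
    Subgroup.lowerCentralSeries_le_self M n
  have key : ∀ n, ∀ h ∈ H, ∃ m ∈ M.lowerCentralSeries n, ∀ w ∈ O, h • w = m • w := by
    intro n
    induction n with
    | zero => simpa using hact
    | succ n ih =>
      let S : Subgroup G :=
        { carrier := {g | ∃ m ∈ M.lowerCentralSeries (n+1), ∀ w ∈ O, g • w = m • w}
          mul_mem' := by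
            rintro a b ⟨m, hm, h1⟩ ⟨m', hm', h2⟩
            refine ⟨m * m', mul_mem hm hm', fun w hw => ?_⟩
            rw [mul_smul, mul_smul, h2 w hw, h1 _ (hO _ (hle _ hm') _ hw)]
          one_mem' := ⟨1, one_mem _, by simp⟩
          inv_mem' := by
            rintro a ⟨m, hm, h1⟩
            refine ⟨m⁻¹, inv_mem hm, fun w hw => ?_⟩
            have h2 := h1 (m⁻¹ • w) (hO _ (inv_mem (hle _ hm)) _ hw)
            rw [smul_inv_smul] at h2
            rw [inv_smul_eq_iff, h2] }
      have hS : ⁅H, H⁆ ≤ S := by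
        rw [Subgroup.commutator_le]
        intro g1 h1 g2 h2
        obtain ⟨m1, hm1, e1⟩ := ih g1 h1
        obtain ⟨m2, hm2, e2⟩ := hact g2 h2
        have i1 : ∀ w ∈ O, g1⁻¹ • w = m1⁻¹ • w := by
          intro w hw
          have h2 := e1 (m1⁻¹ • w) (hO _ (inv_mem (hle _ hm1)) _ hw)
          rw [smul_inv_smul] at h2
          rw [inv_smul_eq_iff, h2]
        have i2 : ∀ w ∈ O, g2⁻¹ • w = m2⁻¹ • w := by
          intro w hw
          have h2 := e2 (m2⁻¹ • w) (hO _ (inv_mem hm2) _ hw)
          rw [smul_inv_smul] at h2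
          rw [inv_smul_eq_iff, h2]
        refine ⟨⁅m1, m2⁆, ?_, fun w hw => ?_⟩
        · rw [Subgroup.lowerCentralSeries_succ]
          exact Subgroup.commutator_mem_commutator hm1 hm2
        · rw [commutatorElement_def, commutatorElement_def]
          simp only [mul_smul]
          have w2 := hO _ (inv_mem hm2) _ hw
          have w3 := hO _ (inv_mem (hle _ hm1)) _ w2
          have w4 := hO _ hm2 _ w3
          rw [i2 w hw, i1 _ w2, e2 _ w3, e1 _ w4]
      intro h hh
      rw [← hH] at hh
      exact hS hh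
  intro h hh w hw
  obtain ⟨m, hm, hmw⟩ := key n h hh
  rw [hn, Subgroup.mem_bot] at hm
  rw [hmw w hw, hm, one_smul]

/-- In a finite nilpotent group a subgroup supplementing the commutator subgroup is everything. -/
theorem eq_top_of_sup_commutator {K : Type*} [Group K] [Finite K] [Group.IsNilpotent K]
    (H : Subgroup K) (h : H ⊔ commutator K = ⊤) : H = ⊤ := by
  by_contra hne
  obtain ⟨C, hC, hHC⟩ := (eq_top_or_exists_le_coatom H).resolve_left hne
  have : C.Normal := NormalizerCondition.normal_of_coatom C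
    Group.normalizerCondition_of_isNilpotent hC
  obtain ⟨x, hx⟩ : ∃ x, x ∉ C := by
    by_contra hcon
    push Not at hcon
    exact hC.1 (eq_top_iff.2 fun y _ => hcon y)
  have h1 : C ⊔ Subgroup.zpowers x = ⊤ := by
    refine hC.2 _ (lt_of_le_of_ne le_sup_left fun he => hx ?_)
    rw [he]
    exact Subgroup.mem_sup_right (Subgroup.mem_zpowers x)
  have h2 : commutator K ≤ C :=
    Subgroup.Normal.commutator_le_of_self_sup_commutative_eq_top h1 inferInstance
  exact hC.1 (eq_top_iff.2 (h ▸ sup_le hHC h2))

/-- version for subgroups -/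
theorem le_of_sup_commutator {G : Type*} [Group G] [Finite G] {M N' : Subgroup G}
    (hM : Group.IsNilpotent M) (hN : N' ≤ M) (h : M ≤ N' ⊔ ⁅M, M⁆) : M ≤ N' := by
  have key : (N'.subgroupOf M) ⊔ commutator M = ⊤ := by
    rw [eq_top_iff]
    rintro ⟨y, hy⟩ -
    have h1 : (N'.subgroupOf M ⊔ commutator M).map M.subtype = N' ⊔ ⁅M, M⁆ := by
      rw [Subgroup.map_sup, Subgroup.subgroupOf_map_subtype, inf_eq_left.2 hN,
        _root_.commutator_def, Subgroup.map_commutator, ← MonoidHom.range_eq_map,
        Subgroup.range_subtype]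
    have h2 : y ∈ (N'.subgroupOf M ⊔ commutator M).map M.subtype := by
      rw [h1]; exact h hy
    obtain ⟨z, hz, hzy⟩ := Subgroup.mem_map.1 h2
    have : z = ⟨y, hy⟩ := Subtype.ext hzy
    exact this ▸ hz
  have h3 := eq_top_of_sup_commutator _ key
  intro y hy
  have h4 : (⟨y, hy⟩ : M) ∈ N'.subgroupOf M := by rw [h3]; trivial
  exact Subgroup.mem_subgroupOf.1 h4

theorem two_card_le_of_lt {G : Type*} [Group G] [Finite G] {M' M : Subgroup G} (h : M' < M) :
    2 * Nat.card M' ≤ Nat.card M := by
  have h1 : Nat.card M' ∣ Nat.card M := Subgroup.card_dvd_of_le h.le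
  obtain ⟨c, hc⟩ := h1
  have h2 : Nat.card M' < Nat.card M := by
    have := Subgroup.card_le_of_le h.le
    refine lt_of_le_of_ne this fun he => h.ne ?_
    exact Subgroup.eq_of_le_of_card_ge h.le he.ge
  have h3 : 2 ≤ c := by
    by_contra hcon
    have : c = 0 ∨ c = 1 := by omega
    rcases this with rfl | rfl
    · have : 0 < Nat.card M := Nat.card_pos
      omega
    · simp only [mul_one] at hc; omega
  rw [hc, mul_comm]
  exact Nat.mul_le_mul_left _ h3

/-- few generators -/
theorem exists_gen {G : Type*} [Group G] [Finite G] (M : Subgroup G) :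
    ∀ (k : ℕ) (M' : Subgroup G), Nat.card M - Nat.card M' = k → M' ≤ M →
    ∃ Y : Finset G, (∀ y ∈ Y, y ∈ M) ∧ 2 ^ Y.card * Nat.card M' ≤ Nat.card M ∧
      ∀ K : Subgroup G, M' ≤ K → (∀ y ∈ Y, y ∈ K) → M ≤ K := by
  classical
  intro k
  induction k using Nat.strong_induction_on with
  | _ k ih =>
    intro M' hk hM'
    by_cases h : M ≤ M'
    · refine ⟨∅, by simp, ?_, fun K hK _ => h.trans hK⟩
      simpa using Subgroup.card_le_of_le hM'
    · obtain ⟨y, hy, hy'⟩ := SetLike.not_le_iff_exists.1 h
      have hlt : M' < M' ⊔ Subgroup.zpowers y := by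
        refine lt_of_le_of_ne le_sup_left fun he => hy' ?_
        rw [he]
        exact Subgroup.mem_sup_right (Subgroup.mem_zpowers y)
      have hle : M' ⊔ Subgroup.zpowers y ≤ M := sup_le hM' (by simpa using hy)
      have hcard := two_card_le_of_lt hlt
      have hc1 := Subgroup.card_le_of_le hle
      have hpos : 0 < Nat.card M' := Nat.card_pos
      obtain ⟨Y, hYM, hYc, hYK⟩ := ih _ (by omega) (M' ⊔ Subgroup.zpowers y) rfl hle
      refine ⟨insert y Y, ?_, ?_, ?_⟩
      · intro z hz
        rcases Finset.mem_insert.1 hz with rfl | hz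
        · exact hy
        · exact hYM z hz
      · have h1 : (insert y Y).card ≤ Y.card + 1 := Finset.card_insert_le _ _
        calc 2 ^ (insert y Y).card * Nat.card M' ≤ 2 ^ (Y.card + 1) * Nat.card M' :=
              Nat.mul_le_mul_right _ (Nat.pow_le_pow_right (by norm_num) h1)
          _ = 2 ^ Y.card * (2 * Nat.card M') := by rw [pow_succ]; ring
          _ ≤ 2 ^ Y.card * Nat.card (M' ⊔ Subgroup.zpowers y : Subgroup G) :=
              Nat.mul_le_mul_left _ hcard
          _ ≤ Nat.card M := hYc
      · intro K hK hy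
        refine hYK K (sup_le hK ?_) fun z hz => hy z (Finset.mem_insert_of_mem hz)
        simpa using hy y (Finset.mem_insert_self _ _)

/-- The chain argument. -/
theorem base_aux {G : Type*} [Group G] [Finite G] {Ω : Type*} [MulAction G Ω]
    (N : Subgroup G) (hN : N.Normal) (hnil : Group.IsNilpotent N) (x : Ω) :
    ∀ (k : ℕ) (M : Subgroup G), Nat.card M = k → N ⊓ stabilizer G x ≤ M → M ≤ N →
      (∀ s ∈ stabilizer G x, ∀ y ∈ M, s * y * s⁻¹ ∈ M) →
      ∃ Y : Finset G, 2 ^ Y.card * Nat.card (N ⊓ stabilizer G x : Subgroup G) ≤ Nat.card M ∧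
        ∀ P : Subgroup G, ⁅P, P⁆ = P → (∀ p ∈ P, p • x = x) →
          (∀ p ∈ P, ∀ y ∈ Y, p • y • x = y • x) → ∀ p ∈ P, ∀ y ∈ M, p • y • x = y • x := by
  classical
  intro k
  induction k using Nat.strong_induction_on with
  | _ k ih =>
    intro M hk hxM hMN hinv
    have hnilM : Group.IsNilpotent M := by
      have h1 : Group.IsNilpotent (M.subgroupOf N) := Subgroup.isNilpotent _
      exact Group.nilpotent_of_mulEquiv (Subgroup.subgroupOfEquivOfLe hMN)
    set Nx : Subgroup G := N ⊓ stabilizer G x with hNx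
    set M' : Subgroup G := Nx ⊔ ⁅M, M⁆ with hM'
    have hcomM : ⁅M, M⁆ ≤ M := by
      rw [Subgroup.commutator_le]
      intro a ha b hb
      rw [commutatorElement_def]
      exact mul_mem (mul_mem (mul_mem ha hb) (inv_mem ha)) (inv_mem hb)
    have hM'M : M' ≤ M := sup_le hxM hcomM
    by_cases hcase : M ≤ M'
    · have h1 : M ≤ Nx := le_of_sup_commutator hnilM hxM hcase
      refine ⟨∅, ?_, ?_⟩
      · simpa using Subgroup.card_le_of_le hxM
      · intro P _ hPx _ p hp y hy
        have : y • x = x := (h1 hy).2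
        rw [this, hPx p hp]
    · have hlt : M' < M := lt_of_le_not_ge hM'M hcase
      have hclt := two_card_le_of_lt hlt
      have hpos : 0 < Nat.card M' := Nat.card_pos
      have hinv' : ∀ s ∈ stabilizer G x, ∀ y ∈ M', s * y * s⁻¹ ∈ M' := by
        intro s hs
        have : M' ≤ M'.comap (MulAut.conj s).toMonoidHom := by
          refine sup_le ?_ ?_
          · intro y hy
            rw [Subgroup.mem_comap]
            refine Subgroup.mem_sup_left ⟨?_, ?_⟩
            · exact hN.conj_mem y hy.1 s
            · have e1 : s • x = x := hs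
              have e2 : y • x = x := hy.2
              have e3 : s⁻¹ • x = x := by rw [inv_smul_eq_iff, e1]
              change (s * y * s⁻¹) • x = x
              simp only [mul_smul]
              rw [e3, e2, e1]
          · rw [Subgroup.commutator_le]
            intro a ha b hb
            rw [Subgroup.mem_comap, map_commutatorElement]
            refine Subgroup.mem_sup_right (Subgroup.commutator_mem_commutator ?_ ?_)
            · exact hinv s hs a ha
            · exact hinv s hs b hb
        intro y hy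
        exact this hy
      obtain ⟨Y', hY'c, hY'⟩ := ih (Nat.card M') (by omega) M' rfl le_sup_left
        (hM'M.trans hMN) hinv'
      obtain ⟨Y, hYM, hYc, hYK⟩ := exists_gen M _ M' rfl hM'M
      refine ⟨Y' ∪ Y, ?_, ?_⟩
      · have h1 : (Y' ∪ Y).card ≤ Y.card + Y'.card := by
          rw [add_comm]; exact Finset.card_union_le _ _
        calc 2 ^ (Y' ∪ Y).card * Nat.card Nx ≤ 2 ^ (Y.card + Y'.card) * Nat.card Nx :=
              Nat.mul_le_mul_right _ (Nat.pow_le_pow_right (by norm_num) h1)
          _ = 2 ^ Y.card * (2 ^ Y'.card * Nat.card Nx) := by rw [pow_add]; ring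
          _ ≤ 2 ^ Y.card * Nat.card M' := Nat.mul_le_mul_left _ hY'c
          _ ≤ Nat.card M := hYc
      · intro P hP hPx hPY
        have hP' : ∀ p ∈ P, ∀ z ∈ M', p • z • x = z • x :=
          hY' P hP hPx fun p hp y hy => hPY p hp y (Finset.mem_union_left _ hy)
        have hPs : ∀ p ∈ P, p ∈ stabilizer G x := fun p hp => hPx p hp
        have hnormal : ∀ y ∈ M, ∀ z ∈ M', y * z * y⁻¹ ∈ M' := by
          intro y hy z hz
          have h1 : y * z * y⁻¹ = ⁅y, z⁆ * z := by rw [commutatorElement_def]; group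
          rw [h1]
          exact mul_mem (Subgroup.mem_sup_right
            (Subgroup.commutator_mem_commutator hy (hM'M hz))) hz
        -- the subgroup of elements centralized modulo `M'`
        let K : Subgroup G :=
          { carrier := {y | y ∈ M ∧ ∀ p ∈ P, y⁻¹ * (p * y * p⁻¹) ∈ M'}
            mul_mem' := by
              rintro a b ⟨ha, ha'⟩ ⟨hb, hb'⟩
              refine ⟨mul_mem ha hb, fun p hp => ?_⟩
              have h1 : (a * b)⁻¹ * (p * (a * b) * p⁻¹) =
                  (b⁻¹ * (a⁻¹ * (p * a * p⁻¹)) * b⁻¹⁻¹) * (b⁻¹ * (p * b * p⁻¹)) := by group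
              rw [h1]
              exact mul_mem (hnormal _ (inv_mem hb) _ (ha' p hp)) (hb' p hp)
            one_mem' := ⟨one_mem _, fun p hp => by simp⟩
            inv_mem' := by
              rintro a ⟨ha, ha'⟩
              refine ⟨inv_mem ha, fun p hp => ?_⟩
              have h1 : a⁻¹⁻¹ * (p * a⁻¹ * p⁻¹) = a * (a⁻¹ * (p * a * p⁻¹))⁻¹ * a⁻¹ := by group
              rw [h1]
              exact hnormal _ ha _ (inv_mem (ha' p hp)) }
        have hMK : M ≤ K := by
          refine hYK K ?_ ?_
          · intro y hy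
            exact ⟨hM'M hy, fun p hp => mul_mem (inv_mem hy) (hinv' p (hPs p hp) y hy)⟩
          · intro y hy
            refine ⟨hYM y hy, fun p hp => Subgroup.mem_sup_left ⟨?_, ?_⟩⟩
            · exact N.mul_mem (N.inv_mem (hMN (hYM y hy)))
                (hN.conj_mem y (hMN (hYM y hy)) p)
            · have h1 : p⁻¹ • x = x := hPx _ (inv_mem hp)
              have h2 := hPY p hp y (Finset.mem_union_right _ hy)
              change (y⁻¹ * (p * y * p⁻¹)) • x = x
              simp only [mul_smul]
              rw [h1, h2, inv_smul_smul]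
        intro p hp y hy
        have hnilM' : Group.IsNilpotent M' := by
          have h1 : Group.IsNilpotent (M'.subgroupOf M) := Subgroup.isNilpotent _
          exact Group.nilpotent_of_mulEquiv (Subgroup.subgroupOfEquivOfLe hM'M)
        have hH : ⁅P.map (MulAut.conj y⁻¹).toMonoidHom, P.map (MulAut.conj y⁻¹).toMonoidHom⁆ =
            P.map (MulAut.conj y⁻¹).toMonoidHom := by
          rw [← Subgroup.map_commutator, hP]
        have key := perfect_nilp_trivial (H := P.map (MulAut.conj y⁻¹).toMonoidHom) (M := M')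
          (O := {w : Ω | ∃ z ∈ M', w = z • x}) hH hnilM' ?_ ?_
        · have h1 : y⁻¹ * p * y ∈ P.map (MulAut.conj y⁻¹).toMonoidHom :=
            ⟨p, hp, by simp⟩
          have h2 := key _ h1 x ⟨1, one_mem _, by simp⟩
          simp only [mul_smul] at h2
          rw [inv_smul_eq_iff] at h2
          exact h2
        · rintro m hm w ⟨z, hz, rfl⟩
          exact ⟨m * z, mul_mem hm hz, by rw [mul_smul]⟩
        · rintro h ⟨q, hq, rfl⟩
          have hc := (hMK hy).2 q hq
          refine ⟨_, hc, ?_⟩
          rintro w ⟨z, hz, rfl⟩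
          have h1 : q⁻¹ • x = x := hPx _ (inv_mem hq)
          have h2 : q • z • x = z • x := hP' q hq z hz
          have h3 : q⁻¹ • z • x = z • x := by rw [inv_smul_eq_iff, h2]
          have h4 : (MulAut.conj y⁻¹).toMonoidHom q = y⁻¹ * q * y := by
            simp
          rw [h4]
          simp only [mul_smul]
          rw [h3]

/-- Let `N` be a nilpotent normal subgroup of `G` acting on `Ω`, `x : Ω`. There is a set `Y ∋ x` of at most `κ + 1` points such that every
perfect subgroup fixing all points of `Y` fixes every point of the orbit `N x`. -/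
theorem exists_small_base {G : Type} [Group G] [Finite G] {Ω : Type} [Fintype Ω] [MulAction G Ω]
    (N : Subgroup G) (hN : N.Normal) (hnil : Group.IsNilpotent N) (x : Ω) (κ : ℕ)
    (hΩ : Fintype.card Ω ≤ 2 ^ κ) :
    ∃ Y : Finset Ω, x ∈ Y ∧ Y.card ≤ κ + 1 ∧
      ∀ P : Subgroup G, ⁅P, P⁆ = P → (∀ p ∈ P, ∀ y ∈ Y, p • y = y) →
        ∀ p ∈ P, ∀ n ∈ N, p • (n • x) = n • x := by
  classical
  obtain ⟨Y, hYc, hY⟩ := base_aux N hN hnil x _ N rfl inf_le_left le_rfl
    (fun s _ y hy => hN.conj_mem y hy s)
  refine ⟨insert x (Y.image fun y => y • x), Finset.mem_insert_self _ _, ?_, ?_⟩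
  · have h1 : (insert x (Y.image fun y => y • x)).card ≤ Y.card + 1 :=
      (Finset.card_insert_le _ _).trans (Nat.succ_le_succ Finset.card_image_le)
    refine h1.trans (Nat.succ_le_succ ?_)
    -- `2 ^ |Y| ≤ [N : N_x] ≤ |Ω| ≤ 2 ^ κ`
    have h2 : Nat.card N ≤ Nat.card Ω * Nat.card (N ⊓ stabilizer G x : Subgroup G) := by
      have h3 : Nat.card N = Nat.card (orbit N x) * Nat.card (stabilizer N x) := by
        rw [← Nat.card_prod]
        exact Nat.card_congr (MulAction.orbitProdStabilizerEquivGroup N x).symm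
      have h4 : Nat.card (orbit N x) ≤ Nat.card Ω :=
        Nat.card_le_card_of_injective _ Subtype.val_injective
      have h5 : Nat.card (stabilizer N x) ≤ Nat.card (N ⊓ stabilizer G x : Subgroup G) := by
        refine Nat.card_le_card_of_injective
          (fun s => (⟨s.1.1, ⟨s.1.2, s.2⟩⟩ : (N ⊓ stabilizer G x : Subgroup G))) ?_
        intro a b hab
        have := congrArg (fun z : (N ⊓ stabilizer G x : Subgroup G) => z.1) hab
        exact Subtype.ext (Subtype.ext this)
      rw [h3]
      exact Nat.mul_le_mul h4 h5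
    have hpos : 0 < Nat.card (N ⊓ stabilizer G x : Subgroup G) := Nat.card_pos
    have h6 : 2 ^ Y.card ≤ 2 ^ κ := by
      have h7 := hYc.trans h2
      have h8 : 2 ^ Y.card ≤ Nat.card Ω := Nat.le_of_mul_le_mul_right h7 hpos
      rw [Nat.card_eq_fintype_card] at h8
      exact h8.trans hΩ
    exact (Nat.pow_le_pow_iff_right (by norm_num)).1 h6
  · intro P hP hfix
    refine hY P hP (fun p hp => hfix p hp x (Finset.mem_insert_self _ _)) ?_
    intro p hp y hy
    exact hfix p hp _ (Finset.mem_insert_of_mem (Finset.mem_image_of_mem _ hy))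

end Vale.Agent.P343
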