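import Vale.Agent.P343.GroupA
import Vale.Agent.P343.GroupB

/-!
# P343, module G3: Proposition G (NOTES.md)
-/

namespace Vale.Agent.P343

open Subgroup MulAction

/-- A perfect subgroup lying over a perfect subgroup of the image. -/
theorem exists_perfect {G B : Type*} [Group G] [Finite G] [Group B] (θ : G →* B)
    (H : Subgroup G) (K : Subgroup B) (hK : ⁅K, K⁆ = K) (hH : K ≤ H.map θ) :
    ∃ P ≤ H, ⁅P, P⁆ = P ∧ P.map θ = K := by
  have hfin : {P : Subgroup G | P ≤ H ∧ P.map θ = K}.Finite := Set.toFinite _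
  have hne : {P : Subgroup G | P ≤ H ∧ P.map θ = K}.Nonempty := by
    refine ⟨H ⊓ K.comap θ, inf_le_left, ?_⟩
    apply le_antisymm
    · rintro _ ⟨g, hg, rfl⟩
      exact hg.2
    · intro b hb
      obtain ⟨g, hg, rfl⟩ := hH hb
      exact ⟨g, ⟨hg, hb⟩, rfl⟩
  obtain ⟨P, hP⟩ := hfin.exists_minimal hne
  refine ⟨P, hP.1.1, ?_, hP.1.2⟩
  have hcom : ⁅P, P⁆ ≤ P := by
    rw [Subgroup.commutator_le]
    intro a ha b hb
    rw [commutatorElement_def]
    exact mul_mem (mul_mem (mul_mem ha hb) (inv_mem ha)) (inv_mem hb)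
  refine le_antisymm hcom (hP.2 ⟨hcom.trans hP.1.1, ?_⟩ hcom)
  rw [Subgroup.map_commutator, hP.1.2, hK]

theorem index_stabilizers_le {G Ω : Type*} [Group G] [Finite G] [Fintype Ω] [MulAction G Ω]
    {κ : ℕ} (hΩ : Fintype.card Ω ≤ 2 ^ κ) (Y : Finset Ω) :
    (⨅ y ∈ Y, stabilizer G y).index ≤ 2 ^ (κ * Y.card) := by
  classical
  induction Y using Finset.induction_on with
  | empty => simp
  | insert a Y ha ih =>
    rw [Finset.iInf_insert, Finset.card_insert_of_notMem ha, mul_add, mul_one, add_comm, pow_add]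
    refine (Subgroup.index_inf_le (H := stabilizer G a)).trans (Nat.mul_le_mul ?_ ih)
    rw [MulAction.index_stabilizer]
    refine le_trans ?_ hΩ
    rw [← Nat.card_eq_fintype_card, ← Set.ncard_univ]
    exact Set.ncard_le_ncard (Set.subset_univ _)

open Classical in
theorem propG_core {G : Type} [Group G] [Finite G] {Ω : Type} [Fintype Ω]
    (ρ : G →* Equiv.Perm Ω) (κ : ℕ)
    (hΩ : Fintype.card Ω ≤ 2 ^ κ) {A : Type} [Group A] [Finite A] (hA : commutator A = ⊤) (t : ℕ)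
    (θ : G →* (Fin t → A)) (hθ : Function.Surjective θ)
    (hmin : ∀ H : Subgroup G, H.map θ = ⊤ → H = ⊤) :
    ∃ S : Fin t → Subgroup G, (∀ i : Fin t, ∀ a : A, ∃ g ∈ S i, θ g = Pi.mulSingle i a) ∧
      ∀ x : Ω, (Finset.univ.filter (fun i : Fin t => ∃ g ∈ S i, ρ g x ≠ x)).card ≤
        2 * (κ * (κ + 1)) := by
  let _ : MulAction G Ω := MulAction.compHom Ω ρ
  have hsm : ∀ (g : G) (x : Ω), ρ g x = g • x := fun _ _ => rfl
  set N : Subgroup G := θ.ker with hN
  have hNf : N ≤ frattini G := by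
    rw [frattini, Order.radical]
    refine le_iInf₂ fun M hM => ?_
    by_contra hcon
    have h1 : N ⊔ M = ⊤ := by
      have hM' : IsCoatom M := hM
      refine hM'.2 _ (lt_of_le_of_ne le_sup_right fun he => hcon ?_)
      rw [he]; exact le_sup_left
    have h2 : M.map θ = ⊤ := by
      have h3 : (N ⊔ M).map θ = ⊤ := by
        rw [h1, ← MonoidHom.range_eq_map, MonoidHom.range_eq_top]; exact hθ
      rw [Subgroup.map_sup] at h3
      have h4 : N.map θ = ⊥ := by
        rw [Subgroup.map_eq_bot_iff]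
      rw [h4, bot_sup_eq] at h3
      exact h3
    have hM' : IsCoatom M := hM
    exact hM'.1 (hmin M h2)
  have hnil : Group.IsNilpotent N := by
    have h0 : Group.IsNilpotent (frattini G) := frattini_nilpotent
    have h1 : Group.IsNilpotent (N.subgroupOf (frattini G)) := Subgroup.isNilpotent _
    exact Group.nilpotent_of_mulEquiv (Subgroup.subgroupOfEquivOfLe hNf)
  have hNn : N.Normal := MonoidHom.normal_ker θ
  let K : Fin t → Subgroup (Fin t → A) := fun i => (MonoidHom.mulSingle (fun _ => A) i).range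
  have hK : ∀ i, ⁅K i, K i⁆ = K i := by
    intro i
    change ⁅(MonoidHom.mulSingle (fun _ => A) i).range, (MonoidHom.mulSingle (fun _ => A) i).range⁆
      = (MonoidHom.mulSingle (fun _ => A) i).range
    rw [MonoidHom.range_eq_map, ← Subgroup.map_commutator, ← commutator_def, hA]
  have hR : ∀ i, ∃ P ≤ (⊤ : Subgroup G), ⁅P, P⁆ = P ∧ P.map θ = K i := by
    intro i
    refine exists_perfect θ ⊤ (K i) (hK i) ?_
    rw [← MonoidHom.range_eq_map, MonoidHom.range_eq_top.2 hθ]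
    exact le_top
  choose R _ hRp hRm using hR
  refine ⟨R, ?_, ?_⟩
  · intro i a
    have h1 : Pi.mulSingle i a ∈ (R i).map θ := by
      rw [hRm]; exact ⟨a, rfl⟩
    obtain ⟨g, hg, h⟩ := h1
    exact ⟨g, hg, h⟩
  · intro x
    obtain ⟨Y, hxY, hYc, hY⟩ := exists_small_base N hNn hnil x κ hΩ
    set L : Subgroup G := ⨅ y ∈ Y, stabilizer G y with hL
    have hidx : (L.map θ).index ≤ 2 ^ (κ * (κ + 1)) := by
      have h1 : (L.map θ).index ∣ L.index := Subgroup.index_map_dvd _ hθ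
      have h2 : L.index ≤ 2 ^ (κ * Y.card) := index_stabilizers_le hΩ Y
      have h3 : 0 < L.index := Nat.pos_of_ne_zero Subgroup.index_ne_zero_of_finite
      exact (Nat.le_of_dvd h3 h1).trans (h2.trans (Nat.pow_le_pow_right (by norm_num)
        (Nat.mul_le_mul_left _ hYc)))
    refine le_trans (Finset.card_le_card ?_) (subgroup_pi_contains hA t (L.map θ) _ hidx)
    intro i hi
    rw [Finset.mem_filter] at hi ⊢
    refine ⟨Finset.mem_univ _, fun hgood => ?_⟩
    obtain ⟨g, hg, hgx⟩ := hi.2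
    apply hgx
    rw [hsm]
    have hKL : K i ≤ L.map θ := by
      rintro _ ⟨a, rfl⟩
      exact hgood a
    obtain ⟨P, hPL, hPp, hPm⟩ := exists_perfect θ L (K i) (hK i) hKL
    have hPY : ∀ p ∈ P, ∀ y ∈ Y, p • y = y := by
      intro p hp y hy
      have h1 : p ∈ L := hPL hp
      rw [hL, Subgroup.mem_iInf] at h1
      have h2 := h1 y
      rw [Subgroup.mem_iInf] at h2
      exact h2 hy
    have hPN := hY P hPp hPY
    refine perfect_nilp_trivial (H := R i) (M := N) (O := {w : Ω | ∃ n ∈ N, w = n • x})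
      (hRp i) hnil ?_ ?_ g hg x ⟨1, one_mem _, by simp⟩
    · rintro m hm w ⟨n, hn, rfl⟩
      exact ⟨m * n, mul_mem hm hn, by rw [mul_smul]⟩
    · intro r hr
      have h1 : θ r ∈ P.map θ := by
        rw [hPm, ← hRm i]; exact ⟨r, hr, rfl⟩
      obtain ⟨p, hp, hpr⟩ := h1
      refine ⟨r * p⁻¹, ?_, ?_⟩
      · rw [hN, MonoidHom.mem_ker, map_mul, map_inv, hpr, mul_inv_cancel]
      · rintro w ⟨n, hn, rfl⟩
        have h2 : p⁻¹ • n • x = n • x := hPN _ (inv_mem hp) n hn
        rw [mul_smul, h2]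

open Classical in
theorem propG {G : Type} [Group G] [Finite G] {Ω : Type} [Fintype Ω] (ρ : G →* Equiv.Perm Ω) (κ : ℕ)
    (hΩ : Fintype.card Ω ≤ 2 ^ κ) {A : Type} [Group A] [Finite A] (hA : commutator A = ⊤) (t : ℕ)
    (θ : G →* (Fin t → A)) (hθ : Function.Surjective θ) :
    ∃ S : Fin t → Subgroup G, (∀ i : Fin t, ∀ a : A, ∃ g ∈ S i, θ g = Pi.mulSingle i a) ∧
      ∀ x : Ω, (Finset.univ.filter (fun i : Fin t => ∃ g ∈ S i, ρ g x ≠ x)).card ≤
        2 * (κ * (κ + 1)) := by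
  have hfin : {H : Subgroup G | H.map θ = ⊤}.Finite := Set.toFinite _
  have hne : {H : Subgroup G | H.map θ = ⊤}.Nonempty :=
    ⟨⊤, by
      change (⊤ : Subgroup G).map θ = ⊤
      rw [← MonoidHom.range_eq_map, MonoidHom.range_eq_top]; exact hθ⟩
  obtain ⟨G1, hG1⟩ := hfin.exists_minimal hne
  have hG1t : G1.map θ = ⊤ := hG1.1
  have hsurj : Function.Surjective (θ.comp G1.subtype) := by
    intro b
    have h1 : b ∈ G1.map θ := by rw [hG1t]; trivial
    obtain ⟨g, hg, rfl⟩ := h1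
    exact ⟨⟨g, hg⟩, rfl⟩
  have hmin : ∀ H : Subgroup G1, H.map (θ.comp G1.subtype) = ⊤ → H = ⊤ := by
    intro H hH
    have h1 : (H.map G1.subtype).map θ = ⊤ := by rw [Subgroup.map_map]; exact hH
    have h2 : G1 ≤ H.map G1.subtype := hG1.2 h1 (Subgroup.map_subtype_le H)
    rw [eq_top_iff]
    rintro ⟨g, hg⟩ -
    obtain ⟨g', hg', hgg⟩ := h2 hg
    have : g' = ⟨g, hg⟩ := Subtype.ext hgg
    exact this ▸ hg'
  obtain ⟨S, hS1, hS2⟩ := propG_core (ρ.comp G1.subtype) κ hΩ hA t (θ.comp G1.subtype) hsurj hmin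
  refine ⟨fun i => (S i).map G1.subtype, ?_, ?_⟩
  · intro i a
    obtain ⟨g, hg, h⟩ := hS1 i a
    exact ⟨g.1, ⟨g, hg, rfl⟩, h⟩
  · intro x
    refine le_trans (Finset.card_le_card ?_) (hS2 x)
    intro i hi
    rw [Finset.mem_filter] at hi ⊢
    refine ⟨Finset.mem_univ _, ?_⟩
    obtain ⟨g, ⟨g', hg', rfl⟩, hgx⟩ := hi.2
    exact ⟨g', hg', hgx⟩

end Vale.Agent.P343
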