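import Mathlib

/-!
# P343, module M5: an idempotent with a group around it, in a finite semigroup
-/

namespace Vale.Agent.P343

/-- every element of a finite monoid has a positive idempotent power -/
theorem exists_idem_pow {M : Type} [Monoid M] [Finite M] (g : M) :
    ∃ n : ℕ, 0 < n ∧ g ^ n * g ^ n = g ^ n := by
  obtain ⟨a, b, hab, h⟩ := Finite.exists_ne_map_eq_of_infinite (fun n : ℕ => g ^ n)
  wlog hlt : a < b generalizing a b
  · exact this b a hab.symm h.symm (lt_of_le_of_ne (not_lt.1 hlt) hab.symm)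
  replace h : g ^ a = g ^ b := h
  obtain ⟨p, hp⟩ : ∃ p, b = a + p := ⟨b - a, by omega⟩
  have hp0 : 0 < p := by omega
  have key : ∀ k : ℕ, g ^ (a + k * p) = g ^ a := by
    intro k
    induction k with
    | zero => simp
    | succ k ih =>
      have e : a + (k + 1) * p = (a + k * p) + p := by ring
      rw [e, pow_add, ih, ← pow_add, ← hp, h]
  refine ⟨(a + 1) * p, Nat.mul_pos (Nat.succ_pos _) hp0, ?_⟩
  have hle : a ≤ (a + 1) * p := by nlinarith
  obtain ⟨c, hc⟩ : ∃ c, (a + 1) * p = c + a := ⟨(a + 1) * p - a, by omega⟩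
  calc g ^ ((a + 1) * p) * g ^ ((a + 1) * p) = g ^ (c + a) * g ^ ((a + 1) * p) := by rw [hc]
    _ = g ^ c * g ^ (a + (a + 1) * p) := by rw [pow_add, pow_add, mul_assoc]
    _ = g ^ c * g ^ a := by rw [key]
    _ = g ^ ((a + 1) * p) := by rw [← pow_add, hc]

/-- In a nonempty finite subset `S` of a monoid closed under multiplication there is an idempotent `e = ι 1` such that
`e S e` is (the image of) a group `G`. -/
theorem exists_group_in_semigroup {M : Type} [Monoid M] [Finite M] (S : Set M) (hne : S.Nonempty)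
    (hmul : ∀ x ∈ S, ∀ y ∈ S, x * y ∈ S) :
    ∃ (G : Type) (_ : Group G) (_ : Finite G) (ι : G → M), Function.Injective ι ∧
      (∀ g h, ι (g * h) = ι g * ι h) ∧ (∀ g, ι g ∈ S) ∧ ∀ x ∈ S, ∃ g, ι g = ι 1 * x * ι 1 := by
  classical
  have hpow : ∀ x ∈ S, ∀ n : ℕ, x ^ (n + 1) ∈ S := by
    intro x hx n
    induction n with
    | zero => simpa using hx
    | succ n ih =>
      rw [pow_succ]
      exact hmul _ ih _ hx
  let T : M → Set M := fun e => {m | ∃ x ∈ S, m = e * x * e}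
  let I : Set M := {e | e ∈ S ∧ e * e = e}
  have hI : I.Nonempty := by
    obtain ⟨x, hx⟩ := hne
    obtain ⟨n, hn, h⟩ := exists_idem_pow x
    obtain ⟨m, rfl⟩ : ∃ m, n = m + 1 := ⟨n - 1, by omega⟩
    exact ⟨x ^ (m + 1), hpow x hx m, h⟩
  obtain ⟨e, ⟨heS, hee⟩, hmin⟩ := Set.exists_min_image I (fun e => (T e).ncard) (Set.toFinite _) hI
  have hTS : ∀ m ∈ T e, m ∈ S := by
    rintro m ⟨x, hx, rfl⟩
    exact hmul _ (hmul _ heS _ hx) _ heS
  have hT1 : ∀ m ∈ T e, e * m = m := by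
    rintro m ⟨x, hx, rfl⟩
    rw [← mul_assoc, ← mul_assoc, hee]
  have hT2 : ∀ m ∈ T e, m * e = m := by
    rintro m ⟨x, hx, rfl⟩
    rw [mul_assoc, hee]
  have hTm : ∀ a ∈ T e, ∀ b ∈ T e, a * b ∈ T e := by
    intro a ha b hb
    refine ⟨a * b, hmul _ (hTS a ha) _ (hTS b hb), ?_⟩
    rw [← mul_assoc, hT1 a ha, mul_assoc, hT2 b hb]
  have heT : e ∈ T e := ⟨e, heS, by rw [hee, hee]⟩
  have hinv : ∀ g ∈ T e, ∃ h ∈ T e, h * g = e := by
    intro g hg
    obtain ⟨n, hn, hidem⟩ := exists_idem_pow g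
    obtain ⟨m, rfl⟩ : ∃ m, n = m + 1 := ⟨n - 1, by omega⟩
    have hgS := hTS g hg
    have hpT : ∀ k : ℕ, g ^ (k + 1) ∈ T e := by
      intro k
      induction k with
      | zero => simpa using hg
      | succ k ih =>
        rw [pow_succ]
        exact hTm _ ih _ hg
    set f := g ^ (m + 1) with hf
    have hfT : f ∈ T e := hpT m
    have hfS : f ∈ S := hTS f hfT
    have hsub : T f ⊆ T e := by
      rintro y ⟨x, hx, rfl⟩
      refine ⟨f * x * f, hmul _ (hmul _ hfS _ hx) _ hfS, ?_⟩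
      rw [← mul_assoc, ← mul_assoc, hT1 f hfT, mul_assoc (f * x) f e, hT2 f hfT]
    have hle : (T e).ncard ≤ (T f).ncard := hmin f ⟨hfS, hidem⟩
    have heq : T f = T e := Set.eq_of_subset_of_ncard_le hsub hle (Set.toFinite _)
    have heTf : e ∈ T f := by rw [heq]; exact heT
    obtain ⟨y, hy, hy'⟩ := heTf
    have hfe : f = e := by
      have h1 : f * e = e := by
        conv_lhs => rw [hy']
        rw [← mul_assoc, ← mul_assoc, hidem]
        exact hy'.symm
      rw [← h1]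
      exact (hT2 f hfT).symm
    refine ⟨g ^ (m + m + 1), hpT (m + m), ?_⟩
    have e1 : g ^ (m + m + 1) * g = f * f := by
      rw [← pow_succ, hf, ← pow_add]
      congr 1
      ring
    rw [e1, hidem, hfe]
  choose! inv hinvT hinvE using hinv
  let _ : Mul (T e) := ⟨fun a b => ⟨a.1 * b.1, hTm a.1 a.2 b.1 b.2⟩⟩
  let _ : One (T e) := ⟨⟨e, heT⟩⟩
  let _ : Inv (T e) := ⟨fun a => ⟨inv a.1, hinvT a.1 a.2⟩⟩
  let grp : Group (T e) := Group.ofLeftAxioms
    (fun a b c => Subtype.ext (mul_assoc a.1 b.1 c.1))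
    (fun a => Subtype.ext (hT1 a.1 a.2))
    (fun a => Subtype.ext (hinvE a.1 a.2))
  refine ⟨T e, grp, inferInstance, Subtype.val, Subtype.val_injective, fun _ _ => rfl,
    fun g => hTS g.1 g.2, fun x hx => ⟨⟨e * x * e, x, hx, rfl⟩, rfl⟩⟩

end Vale.Agent.P343
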