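import Vale.Agent.P343.Scat
import Vale.Agent.P343.Channel
import Vale.Agent.P343.PropG
import Vale.Agent.P343.Semi
import Vale.Agent.P343.Rel

/-!
# P343, module M6: the main recursion (NOTES.md, Main Lemma)
-/

namespace Vale.Agent.P343

open Scat

variable {d t : ℕ}

/-- scattering of a word -/
noncomputable def sc {R L : Type} [Finite R] [Finite L] {α : Type} (ψ : α → Scat R L) (w : List α) : Scat R L :=
  (w.map ψ).prod

section sc
variable {R L : Type} [Finite R] [Finite L] {α : Type} (ψ : α → Scat R L)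

theorem sc_append (u v : List α) : sc ψ (u ++ v) = sc ψ u * sc ψ v := by
  simp [sc]

theorem sc_singleton (a : α) : sc ψ [a] = ψ a := by
  simp [sc]

end sc

/-- composition of relations -/
def rc {P : Type} (r s : P → P → Prop) (p q : P) : Prop := ∃ m, r p m ∧ s m q

theorem val_append' {P : Type} (u v : List (Letter P)) : val (u ++ v) = rc (val u) (val v) := by
  funext p r
  exact propext (val_append u v p r)

section rels

variable (l : Fin d)

/-- the point `s` of level `l` -/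
def ptS (t : ℕ) (l : Fin d) : Pt d t := some (l, none)

/-- the point `c` with index `(i,x)` of level `l` -/
def ptC (l : Fin d) (i : Fin t) (x : Fin 5) : Pt d t := some (l, some (i, x))

/-- the group acting on the blocks -/
abbrev Gam (t : ℕ) : Type := Fin t → alternatingGroup (Fin 5)

/-- values of the words in `W`: the identity on lower points and on `s`, a permutation of the points `c` -/
def Vrel (π : Gam t) (p q : Pt d t) : Prop :=
  (p = q ∧ InB l.val p) ∨ (p = ptS t l ∧ q = ptS t l) ∨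
    ∃ i x, p = ptC l i x ∧ q = ptC l i ((((π i)⁻¹ : alternatingGroup (Fin 5)) : Equiv.Perm (Fin 5)) x)

/-- the letter `g_C` -/
def gRel (p q : Pt d t) : Prop :=
  (p = q ∧ InB (l.val + 1) p) ∨ (∃ i, p = ptC l i 0 ∧ q = none)

/-- the letter `h` -/
def hRel (p q : Pt d t) : Prop :=
  (p = q ∧ InB (l.val + 1) p) ∨ (p = none ∧ q = ptS t l)

/-- value of the item -/
def iRel (p q : Pt d t) : Prop :=
  (p = q ∧ InB (l.val + 1) p) ∨ (∃ i, p = ptC l i 0 ∧ q = ptS t l)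

/-- the letter `z` -/
def zRel (i : Fin t) (p q : Pt d t) : Prop :=
  (p = q ∧ InB l.val p) ∨ (p = none ∧ q = ptC l i 0)

/-- the letter `y` -/
def yRel (p q : Pt d t) : Prop :=
  (p = q ∧ InB l.val p) ∨ (p = ptS t l ∧ q = none)

variable {l}

theorem not_InB_none (j : ℕ) : ¬ InB j (none : Pt d t) := by
  rintro ⟨i, x, h, _⟩
  cases h

theorem not_InB_S : ¬ InB l.val (ptS t l) := by
  rintro ⟨i, x, h, hi⟩
  simp [ptS] at h
  obtain ⟨rfl, -⟩ := h
  exact lt_irrefl _ hi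

theorem not_InB_C (i : Fin t) (x : Fin 5) : ¬ InB l.val (ptC l i x) := by
  rintro ⟨i, x, h, hi⟩
  simp [ptC] at h
  obtain ⟨rfl, -⟩ := h
  exact lt_irrefl _ hi

theorem InB_succ_iff (p : Pt d t) :
    InB (l.val + 1) p ↔ InB l.val p ∨ p = ptS t l ∨ ∃ i x, p = ptC l i x := by
  constructor
  · rintro ⟨i, x, rfl, hi⟩
    rcases Nat.lt_succ_iff_lt_or_eq.mp hi with h | h
    · exact Or.inl ⟨i, x, rfl, h⟩
    · right
      have : i = l := Fin.ext h
      subst this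
      rcases x with _ | ⟨a, b⟩
      · left; rfl
      · right; exact ⟨a, b, rfl⟩
  · rintro (⟨i, x, rfl, hi⟩ | rfl | ⟨i, x, rfl⟩)
    · exact ⟨i, x, rfl, by omega⟩
    · exact ⟨l, none, rfl, by omega⟩
    · exact ⟨l, some (i, x), rfl, by omega⟩

theorem ptS_ne_none : ptS t l ≠ none := by simp [ptS]
theorem ptC_ne_none (i : Fin t) (x : Fin 5) : ptC l i x ≠ none := by simp [ptC]
theorem ptS_ne_ptC (i : Fin t) (x : Fin 5) : ptS t l ≠ ptC l i x := by simp [ptS, ptC]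
theorem ptC_inj {i i' : Fin t} {x x' : Fin 5} : ptC l i x = ptC l i' x' ↔ i = i' ∧ x = x' := by
  simp [ptC]

/-- case analysis on points -/
theorem pt_cases (l : Fin d) (p : Pt d t) :
    p = none ∨ InB l.val p ∨ p = ptS t l ∨ (∃ i x, p = ptC l i x) ∨ ¬ InB (l.val + 1) p ∧ p ≠ none := by
  by_cases h0 : p = none
  · exact Or.inl h0
  by_cases h : InB (l.val + 1) p
  · rcases (InB_succ_iff p).mp h with h | h | h
    · exact Or.inr (Or.inl h)
    · exact Or.inr (Or.inr (Or.inl h))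
    · exact Or.inr (Or.inr (Or.inr (Or.inl h)))
  · exact Or.inr (Or.inr (Or.inr (Or.inr ⟨h, h0⟩)))

theorem Vrel_one : Vrel l (1 : Gam t) = fun p q => p = q ∧ InB (l.val + 1) p := by
  funext p q
  apply propext
  rw [InB_succ_iff]
  unfold Vrel
  constructor
  · rintro (⟨rfl, h⟩ | ⟨rfl, rfl⟩ | ⟨i, x, rfl, rfl⟩)
    · exact ⟨rfl, Or.inl h⟩
    · exact ⟨rfl, Or.inr (Or.inl rfl)⟩
    · exact ⟨by simp, Or.inr (Or.inr ⟨i, x, rfl⟩)⟩
  · rintro ⟨rfl, h | rfl | ⟨i, x, rfl⟩⟩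
    · exact Or.inl ⟨rfl, h⟩
    · exact Or.inr (Or.inl ⟨rfl, rfl⟩)
    · exact Or.inr (Or.inr ⟨i, x, rfl, by simp⟩)

theorem Vrel_mul (π σ : Gam t) : rc (Vrel l π) (Vrel l σ) = Vrel l (π * σ) := by
  funext p q
  apply propext
  constructor
  · rintro ⟨m, h1, h2⟩
    rcases h1 with ⟨rfl, h⟩ | ⟨rfl, rfl⟩ | ⟨i, x, rfl, rfl⟩
    · rcases h2 with ⟨rfl, h'⟩ | ⟨rfl, rfl⟩ | ⟨i, x, rfl, rfl⟩
      · exact Or.inl ⟨rfl, h⟩
      · exact absurd h not_InB_S
      · exact absurd h (not_InB_C _ _)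
    · rcases h2 with ⟨rfl, h'⟩ | ⟨_, rfl⟩ | ⟨i, x, h', rfl⟩
      · exact absurd h' not_InB_S
      · exact Or.inr (Or.inl ⟨rfl, rfl⟩)
      · exact absurd h' (ptS_ne_ptC _ _)
    · rcases h2 with ⟨rfl, h'⟩ | ⟨h', rfl⟩ | ⟨i', x', h', rfl⟩
      · exact absurd h' (not_InB_C _ _)
      · exact absurd h'.symm (ptS_ne_ptC _ _)
      · obtain ⟨rfl, rfl⟩ := ptC_inj.mp h'
        refine Or.inr (Or.inr ⟨i, x, rfl, ?_⟩)
        simp
  · rintro (⟨rfl, h⟩ | ⟨rfl, rfl⟩ | ⟨i, x, rfl, rfl⟩)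
    · exact ⟨p, Or.inl ⟨rfl, h⟩, Or.inl ⟨rfl, h⟩⟩
    · exact ⟨_, Or.inr (Or.inl ⟨rfl, rfl⟩), Or.inr (Or.inl ⟨rfl, rfl⟩)⟩
    · exact ⟨_, Or.inr (Or.inr ⟨i, x, rfl, rfl⟩), Or.inr (Or.inr ⟨i, _, rfl, by simp⟩)⟩

/-- composing on the left with the identity of level `l+1` -/
theorem rc_id_left (r : Pt d t → Pt d t → Prop) :
    rc (fun p q => p = q ∧ InB (l.val + 1) p) r = fun p q => InB (l.val + 1) p ∧ r p q := by
  funext p q
  apply propext
  constructor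
  · rintro ⟨m, ⟨rfl, h⟩, h2⟩
    exact ⟨h, h2⟩
  · rintro ⟨h, h2⟩
    exact ⟨p, ⟨rfl, h⟩, h2⟩

theorem rc_id_right (r : Pt d t → Pt d t → Prop) :
    rc r (fun p q => p = q ∧ InB (l.val + 1) p) = fun p q => InB (l.val + 1) q ∧ r p q := by
  funext p q
  apply propext
  constructor
  · rintro ⟨m, h2, ⟨rfl, h⟩⟩
    exact ⟨h, h2⟩
  · rintro ⟨h, h2⟩
    exact ⟨q, h2, ⟨rfl, h⟩⟩

theorem InB_S : InB (l.val + 1) (ptS t l) := (InB_succ_iff _).mpr (Or.inr (Or.inl rfl))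
theorem InB_C (i : Fin t) (x : Fin 5) : InB (l.val + 1) (ptC l i x) :=
  (InB_succ_iff _).mpr (Or.inr (Or.inr ⟨i, x, rfl⟩))

/-- the dead item -/
theorem dead_item : rc (gRel l) (rc (DeadRel (l.val + 1)) (hRel (t := t) l)) = Vrel l 1 := by
  rw [Vrel_one]
  funext p q
  apply propext
  constructor
  · rintro ⟨m, h1, m', ⟨rfl, h2⟩, h3⟩
    rcases h1 with ⟨rfl, h⟩ | ⟨i, rfl, rfl⟩
    · rcases h3 with ⟨rfl, h'⟩ | ⟨rfl, rfl⟩
      · exact ⟨rfl, h⟩
      · exact absurd h (not_InB_none _)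
    · exact absurd h2 (not_InB_none _)
  · rintro ⟨rfl, h⟩
    exact ⟨p, Or.inl ⟨rfl, h⟩, p, ⟨rfl, h⟩, Or.inl ⟨rfl, h⟩⟩

/-- the alive item -/
theorem alive_item : rc (gRel l) (rc (AliveRel (l.val + 1)) (hRel (t := t) l)) = iRel l := by
  funext p q
  apply propext
  constructor
  · rintro ⟨m, h1, m', h2, h3⟩
    rcases h1 with ⟨rfl, h⟩ | ⟨i, rfl, rfl⟩
    · rcases h2 with ⟨rfl, _⟩ | ⟨rfl, rfl⟩
      · rcases h3 with ⟨rfl, h'⟩ | ⟨rfl, rfl⟩
        · exact Or.inl ⟨rfl, h⟩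
        · exact absurd h (not_InB_none _)
      · exact absurd h (not_InB_none _)
    · rcases h2 with ⟨rfl, h⟩ | ⟨_, rfl⟩
      · exact absurd h (not_InB_none _)
      · rcases h3 with ⟨rfl, h'⟩ | ⟨_, rfl⟩
        · exact absurd h' (not_InB_none _)
        · exact Or.inr ⟨i, rfl, rfl⟩
  · rintro (⟨rfl, h⟩ | ⟨i, rfl, rfl⟩)
    · exact ⟨p, Or.inl ⟨rfl, h⟩, p, Or.inl ⟨rfl, h⟩, Or.inl ⟨rfl, h⟩⟩
    · exact ⟨none, Or.inr ⟨i, rfl, rfl⟩, none, Or.inr ⟨rfl, rfl⟩, Or.inr ⟨rfl, rfl⟩⟩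

theorem iRel_InB {p q : Pt d t} (h : iRel l p q) : InB (l.val + 1) p ∧ InB (l.val + 1) q := by
  rcases h with ⟨rfl, h⟩ | ⟨i, rfl, rfl⟩
  · exact ⟨h, h⟩
  · exact ⟨InB_C _ _, InB_S⟩

theorem final_alive (i : Fin t) : rc (zRel l i) (rc (iRel l) (yRel l)) = AliveRel l.val := by
  funext p q
  apply propext
  constructor
  · rintro ⟨m, h1, m', h2, h3⟩
    rcases h1 with ⟨rfl, h⟩ | ⟨rfl, rfl⟩
    · rcases h2 with ⟨rfl, _⟩ | ⟨i', rfl, rfl⟩
      · rcases h3 with ⟨rfl, h'⟩ | ⟨rfl, rfl⟩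
        · exact Or.inl ⟨rfl, h⟩
        · exact absurd h not_InB_S
      · exact absurd h (not_InB_C _ _)
    · rcases h2 with ⟨rfl, _⟩ | ⟨i', _, rfl⟩
      · rcases h3 with ⟨rfl, h'⟩ | ⟨h', rfl⟩
        · exact absurd h' (not_InB_C _ _)
        · exact absurd h'.symm (ptS_ne_ptC _ _)
      · rcases h3 with ⟨rfl, h'⟩ | ⟨_, rfl⟩
        · exact absurd h' not_InB_S
        · exact Or.inr ⟨rfl, rfl⟩
  · rintro (⟨rfl, h⟩ | ⟨rfl, rfl⟩)
    · exact ⟨p, Or.inl ⟨rfl, h⟩, p, Or.inl ⟨rfl, (InB_succ_iff p).mpr (Or.inl h)⟩, Or.inl ⟨rfl, h⟩⟩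
    · exact ⟨_, Or.inr ⟨rfl, rfl⟩, _, Or.inr ⟨i, rfl, rfl⟩, Or.inr ⟨rfl, rfl⟩⟩

theorem final_dead (i : Fin t) (π : Gam t) (hπ : ((π i : alternatingGroup (Fin 5)) : Equiv.Perm (Fin 5)) 0 ≠ 0) :
    rc (zRel l i) (rc (Vrel l π⁻¹) (rc (iRel l) (rc (Vrel l π) (yRel l)))) = DeadRel l.val := by
  funext p q
  apply propext
  constructor
  · rintro ⟨m1, h1, m2, h2, m3, h3, m4, h4, h5⟩
    rcases h1 with ⟨rfl, h⟩ | ⟨rfl, rfl⟩
    · rcases h2 with ⟨rfl, _⟩ | ⟨rfl, rfl⟩ | ⟨i', x', rfl, rfl⟩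
      · rcases h3 with ⟨rfl, _⟩ | ⟨i', rfl, rfl⟩
        · rcases h4 with ⟨rfl, _⟩ | ⟨rfl, rfl⟩ | ⟨i', x', rfl, rfl⟩
          · rcases h5 with ⟨rfl, _⟩ | ⟨rfl, rfl⟩
            · exact ⟨rfl, h⟩
            · exact absurd h not_InB_S
          · exact absurd h not_InB_S
          · exact absurd h (not_InB_C _ _)
        · exact absurd h (not_InB_C _ _)
      · exact absurd h not_InB_S
      · exact absurd h (not_InB_C _ _)
    · exfalso
      rcases h2 with ⟨rfl, h⟩ | ⟨h, rfl⟩ | ⟨i', x', h, rfl⟩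
      · exact not_InB_C _ _ h
      · exact ptS_ne_ptC _ _ h.symm
      · obtain ⟨rfl, rfl⟩ := ptC_inj.mp h
        simp only [Pi.inv_apply, inv_inv] at h3
        rcases h3 with ⟨rfl, _⟩ | ⟨i', h', rfl⟩
        · rcases h4 with ⟨rfl, h⟩ | ⟨h, rfl⟩ | ⟨i', x', h, rfl⟩
          · exact not_InB_C _ _ h
          · exact ptS_ne_ptC _ _ h.symm
          · rcases h5 with ⟨rfl, h⟩ | ⟨h, rfl⟩
            · exact not_InB_C _ _ h
            · exact ptS_ne_ptC _ _ h.symm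
        · obtain ⟨-, h''⟩ := ptC_inj.mp h'
          exact hπ h''
  · rintro ⟨rfl, h⟩
    have h' : InB (l.val + 1) p := (InB_succ_iff p).mpr (Or.inl h)
    exact ⟨p, Or.inl ⟨rfl, h⟩, p, Or.inl ⟨rfl, h⟩, p, Or.inl ⟨rfl, h'⟩, p, Or.inl ⟨rfl, h⟩, Or.inl ⟨rfl, h⟩⟩

end rels

/-- `Alt(5)` is perfect. -/
theorem alt5_perfect : commutator (alternatingGroup (Fin 5)) = ⊤ :=
  commutator_alternatingGroup_eq_top (by simp)

/-- `Alt(5)` moves the point `0`. -/
theorem alt5_moves : ∃ a : alternatingGroup (Fin 5), (a : Equiv.Perm (Fin 5)) 0 ≠ 0 :=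
  ⟨⟨Equiv.swap 0 1 * Equiv.swap 0 2, by rw [Equiv.Perm.mem_alternatingGroup]; decide⟩, by decide⟩

open Classical in
/-- pigeonhole used in the recursion -/
theorem exists_good_index {Ω : Type} [Fintype Ω] (ht : 0 < t) (supp : Finset Ω) (bad : Ω → Fin t → Prop) (K : ℕ)
    (h : ∀ x, (Finset.univ.filter (fun i : Fin t => bad x i)).card ≤ K) :
    ∃ i : Fin t, t * (supp.filter (fun x => bad x i)).card ≤ K * supp.card := by
  by_contra hcon
  push Not at hcon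
  have h1 : ∑ i : Fin t, (supp.filter (fun x => bad x i)).card ≤ K * supp.card := by
    have : ∑ i : Fin t, (supp.filter (fun x => bad x i)).card
        = ∑ x ∈ supp, (Finset.univ.filter (fun i : Fin t => bad x i)).card := by
      simp only [Finset.card_filter]
      exact Finset.sum_comm
    rw [this, mul_comm]
    calc ∑ x ∈ supp, (Finset.univ.filter (fun i : Fin t => bad x i)).card
        ≤ ∑ x ∈ supp, K := Finset.sum_le_sum (fun x _ => h x)
      _ = supp.card * K := by simp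
  have h2 : ∑ _i : Fin t, K * supp.card < ∑ i : Fin t, t * (supp.filter (fun x => bad x i)).card := by
    apply Finset.sum_lt_sum_of_nonempty
    · exact ⟨⟨0, ht⟩, Finset.mem_univ _⟩
    · intro i _
      exact hcon i
  have h3 : ∑ i : Fin t, t * (supp.filter (fun x => bad x i)).card
      = t * ∑ i : Fin t, (supp.filter (fun x => bad x i)).card := (Finset.mul_sum _ _ _).symm
  rw [h3] at h2
  simp only [Finset.sum_const, Finset.card_univ, Fintype.card_fin, smul_eq_mul] at h2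
  exact absurd (Nat.mul_le_mul_left t h1) (not_le.mpr h2)

/-- The recursion step, with the bound `b` of Proposition G as a parameter. -/
theorem step_gen {R L : Type} [Fintype R] [Fintype L] (ψ : Letter (Pt d t) → Scat R L) (b : ℕ)
    (hprop : ∀ (G : Type) [Group G] [Finite G] (ρ : G →* Equiv.Perm (R ⊕ L))
      (θ : G →* (Fin t → alternatingGroup (Fin 5))), Function.Surjective θ →
      ∃ T : Fin t → Subgroup G,
        (∀ i : Fin t, ∀ a : alternatingGroup (Fin 5), ∃ g ∈ T i, θ g = Pi.mulSingle i a) ∧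
        ∀ x : R ⊕ L, ((Set.toFinite {i : Fin t | ∃ g ∈ T i, ρ g x ≠ x}).toFinset).card ≤ b)
    (j : ℕ) (hj : j < d) (ht : 0 < t)
    (u1 u0 : List (Letter (Pt d t))) (h1 : val u1 = AliveRel (j + 1)) (h0 : val u0 = DeadRel (j + 1)) :
    ∃ v1 v0 : List (Letter (Pt d t)), val v1 = AliveRel j ∧ val v0 = DeadRel j ∧
      t * sdist (sc ψ v1) (sc ψ v0) ≤ 3 * b * sdist (sc ψ u1) (sc ψ u0) := by
  classical
  set l : Fin d := ⟨j, hj⟩ with hl
  -- the semigroup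
  let S : Set (Scat R L × Gam t) := {m | ∃ w : List (Letter (Pt d t)), val w = Vrel l m.2 ∧ sc ψ w = m.1}
  have hSmul : ∀ x ∈ S, ∀ y ∈ S, x * y ∈ S := by
    rintro x ⟨w, hw, hw'⟩ y ⟨w2, hw2, hw2'⟩
    refine ⟨w ++ w2, ?_, ?_⟩
    · rw [val_append', hw, hw2, Vrel_mul]; rfl
    · rw [sc_append, hw', hw2']; rfl
  have hSletter : ∀ π : Gam t, (sc ψ [mkLetter (Vrel l π)], π) ∈ S := fun π =>
    ⟨_, val_mkLetter _, rfl⟩
  obtain ⟨G, hG, hGfin, ι, hιinj, hιmul, hιS, hιex⟩ :=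
    exists_group_in_semigroup S ⟨_, hSletter 1⟩ hSmul
  choose wd hwdval hwdsc using hιS
  -- the identity
  have hι1 : (ι 1).2 = 1 := by
    have := hιmul 1 1
    rw [mul_one] at this
    have h2 : (ι 1).2 = (ι 1).2 * (ι 1).2 := congrArg Prod.snd this
    exact (left_eq_mul.mp h2)
  set e : Scat R L := (ι 1).1 with he_def
  let φ : G → Scat R L := fun g => (ι g).1
  have hφmul : ∀ g h, φ (g * h) = φ g * φ h := fun g h => congrArg Prod.fst (hιmul g h)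
  have hφ1 : φ 1 = e := rfl
  have he : e * e = e := by
    have := hφmul 1 1
    rw [mul_one] at this
    exact this.symm
  let θ : G →* (Fin t → alternatingGroup (Fin 5)) :=
    { toFun := fun g => (ι g).2
      map_one' := hι1
      map_mul' := fun g h => congrArg Prod.snd (hιmul g h) }
  have hθ : Function.Surjective θ := by
    intro π
    obtain ⟨g, hg⟩ := hιex _ (hSletter π)
    refine ⟨g, ?_⟩
    show (ι g).2 = π
    rw [hg]
    show (ι 1).2 * π * (ι 1).2 = π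
    rw [hι1]; simp
  obtain ⟨ρ, hρ⟩ := Scat.channel e he φ hφ1 hφmul
  obtain ⟨T, hT1, hT2'⟩ := hprop G ρ θ hθ
  have hT2 : ∀ x : R ⊕ L, (Finset.univ.filter (fun i : Fin t => ∃ g ∈ T i, ρ g x ≠ x)).card ≤ b := by
    intro x
    refine le_trans (Finset.card_le_card ?_) (hT2' x)
    intro i hi
    simpa using hi
  -- the item
  let gL : Letter (Pt d t) := mkLetter (gRel l)
  let hL : Letter (Pt d t) := mkLetter (hRel l)
  have hval0 : val ([gL] ++ (u0 ++ [hL])) = Vrel l (1 : Gam t) := by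
    rw [val_append', val_append', val_mkLetter, val_mkLetter, h0]
    exact dead_item
  have hval1 : val ([gL] ++ (u1 ++ [hL])) = iRel l := by
    rw [val_append', val_append', val_mkLetter, val_mkLetter, h1]
    exact alive_item
  obtain ⟨g0, hg0⟩ := hιex (sc ψ ([gL] ++ (u0 ++ [hL])), 1) ⟨_, hval0, rfl⟩
  have hg0θ : (ι g0⁻¹).2 = 1 := by
    have h2 : θ g0 = 1 := by
      show (ι g0).2 = 1
      rw [hg0]
      show (ι 1).2 * 1 * (ι 1).2 = 1
      rw [hι1]; simp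
    show θ g0⁻¹ = 1
    rw [map_inv, h2, inv_one]
  have hg0φ : φ g0 = e * sc ψ ([gL] ++ (u0 ++ [hL])) * e := congrArg Prod.fst hg0
  -- item words
  let I : List (Letter (Pt d t)) → List (Letter (Pt d t)) := fun u =>
    wd 1 ++ (([gL] ++ (u ++ [hL])) ++ (wd 1 ++ wd g0⁻¹))
  have hIsc : ∀ u, sc ψ (I u) = (e * sc ψ [gL]) * sc ψ u * (sc ψ [hL] * e * φ g0⁻¹) := by
    intro u
    show sc ψ (wd 1 ++ (([gL] ++ (u ++ [hL])) ++ (wd 1 ++ wd g0⁻¹))) = _
    simp only [sc_append, hwdsc]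
    show e * (sc ψ [gL] * (sc ψ u * sc ψ [hL]) * (e * φ g0⁻¹)) = _
    simp only [mul_assoc]
  have hI0 : sc ψ (I u0) = e := by
    rw [hIsc]
    have h3 : φ g0 * φ g0⁻¹ = e := by rw [← hφmul, mul_inv_cancel]
    rw [hg0φ] at h3
    simp only [sc_append] at h3
    simp only [mul_assoc] at h3 ⊢
    exact h3
  have hVone : ∀ r : Pt d t → Pt d t → Prop, (∀ p q, r p q → InB (l.val + 1) p ∧ InB (l.val + 1) q) →
      rc (Vrel l (1 : Gam t)) r = r ∧ rc r (Vrel l (1 : Gam t)) = r := by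
    intro r hr
    rw [Vrel_one, rc_id_left, rc_id_right]
    constructor
    · funext p q
      exact propext ⟨fun h => h.2, fun h => ⟨(hr p q h).1, h⟩⟩
    · funext p q
      exact propext ⟨fun h => h.2, fun h => ⟨(hr p q h).2, h⟩⟩
  have hI1val : val (I u1) = iRel l := by
    show val (wd 1 ++ (([gL] ++ (u1 ++ [hL])) ++ (wd 1 ++ wd g0⁻¹))) = _
    rw [val_append', val_append' _ (wd 1 ++ wd g0⁻¹), val_append' (wd 1), hval1, hwdval, hwdval, hι1, hg0θ, Vrel_mul, mul_one,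
      (hVone _ (fun p q h => iRel_InB h)).2, (hVone _ (fun p q h => iRel_InB h)).1]
  set τ : Scat R L := sc ψ (I u1) with hτ
  have hφe : ∀ g, φ g * e = φ g := fun g => by rw [← hφ1, ← hφmul, mul_one]
  have heφ : ∀ g, e * φ g = φ g := fun g => by rw [← hφ1, ← hφmul, one_mul]
  have hτe : e * τ * e = τ := by
    rw [hτ, hIsc]
    simp only [mul_assoc, hφe]
    rw [← mul_assoc e e, he]
  have hdist : sdist τ e ≤ sdist (sc ψ u1) (sc ψ u0) := by
    have := sdist_mono (e * sc ψ [gL]) (sc ψ u1) (sc ψ u0) (sc ψ [hL] * e * φ g0⁻¹)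
    rwa [← hIsc, ← hIsc, hI0] at this
  -- pigeonhole
  let supp : Finset (R ⊕ L) := Finset.univ.filter (fun x : R ⊕ L => τ.perm x ≠ e.perm x)
  obtain ⟨i, hi⟩ := exists_good_index ht supp (fun x i => ∃ g ∈ T i, ρ g x ≠ x) b hT2
  -- the group element
  obtain ⟨a, ha⟩ := alt5_moves
  obtain ⟨g, hgT, hgθ⟩ := hT1 i a
  let zL : Letter (Pt d t) := mkLetter (zRel l i)
  let yL : Letter (Pt d t) := mkLetter (yRel l)
  refine ⟨[zL] ++ (I u1 ++ [yL]), [zL] ++ (wd g⁻¹ ++ (I u1 ++ (wd g ++ [yL]))), ?_, ?_, ?_⟩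
  · rw [val_append', val_append', val_mkLetter, val_mkLetter, hI1val]
    exact final_alive i
  · rw [val_append' [zL], val_append' (wd g⁻¹), val_append' (I u1), val_append' (wd g), val_mkLetter, val_mkLetter,
      hI1val, hwdval, hwdval]
    have h4 : (ι g⁻¹).2 = ((ι g).2)⁻¹ := by
      show θ g⁻¹ = (θ g)⁻¹
      rw [map_inv]
    rw [h4]
    apply final_dead i
    have h5 : (ι g).2 = Pi.mulSingle i a := hgθ
    rw [h5]
    simpa using ha
  · have h6 : sdist (sc ψ ([zL] ++ (I u1 ++ [yL]))) (sc ψ ([zL] ++ (wd g⁻¹ ++ (I u1 ++ (wd g ++ [yL])))))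
        ≤ sdist τ (φ g⁻¹ * τ * φ g) := by
      have h7 := sdist_mono (sc ψ [zL]) τ (φ g⁻¹ * τ * φ g) (sc ψ [yL])
      have h8 : sc ψ ([zL] ++ (I u1 ++ [yL])) = sc ψ [zL] * τ * sc ψ [yL] := by
        rw [sc_append, sc_append, mul_assoc]
      have h9 : sc ψ ([zL] ++ (wd g⁻¹ ++ (I u1 ++ (wd g ++ [yL]))))
          = sc ψ [zL] * (φ g⁻¹ * τ * φ g) * sc ψ [yL] := by
        rw [sc_append ψ [zL], sc_append ψ (wd g⁻¹), sc_append ψ (I u1), sc_append ψ (wd g), hwdsc, hwdsc]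
        simp only [mul_assoc]
        rfl
      rw [h8, h9]
      exact h7
    have h10 := hρ τ hτe g
    have h11 : (Finset.univ.filter (fun x : R ⊕ L => τ.perm x ≠ e.perm x ∧ ρ g x ≠ x)).card
        ≤ (supp.filter (fun x => ∃ g ∈ T i, ρ g x ≠ x)).card := by
      apply Finset.card_le_card
      intro x hx
      simp only [Finset.mem_filter, Finset.mem_univ, true_and, supp] at hx ⊢
      exact ⟨hx.1, g, hgT, hx.2⟩
    have h12 : supp.card = sdist τ e := rfl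
    calc t * sdist (sc ψ ([zL] ++ (I u1 ++ [yL]))) (sc ψ ([zL] ++ (wd g⁻¹ ++ (I u1 ++ (wd g ++ [yL])))))
        ≤ t * (3 * (supp.filter (fun x => ∃ g ∈ T i, ρ g x ≠ x)).card) :=
          Nat.mul_le_mul_left t (h6.trans (h10.trans (Nat.mul_le_mul_left 3 h11)))
      _ = 3 * (t * (supp.filter (fun x => ∃ g ∈ T i, ρ g x ≠ x)).card) := by ring
      _ ≤ 3 * (b * supp.card) := Nat.mul_le_mul_left 3 hi
      _ = 3 * b * sdist τ e := by rw [h12]; ring
      _ ≤ 3 * b * sdist (sc ψ u1) (sc ψ u0) := Nat.mul_le_mul_left _ hdist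

theorem step {R L : Type} [Fintype R] [Fintype L] (ψ : Letter (Pt d t) → Scat R L) (κ : ℕ)
    (hcard : Fintype.card R + Fintype.card L ≤ 2 ^ κ) (j : ℕ) (hj : j < d) (ht : 0 < t)
    (u1 u0 : List (Letter (Pt d t))) (h1 : val u1 = AliveRel (j + 1)) (h0 : val u0 = DeadRel (j + 1)) :
    ∃ v1 v0 : List (Letter (Pt d t)), val v1 = AliveRel j ∧ val v0 = DeadRel j ∧
      t * sdist (sc ψ v1) (sc ψ v0) ≤ 6 * (κ * (κ + 1)) * sdist (sc ψ u1) (sc ψ u0) := by
  classical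
  obtain ⟨v1, v0, hv1, hv0, h⟩ := step_gen ψ (2 * (κ * (κ + 1))) (fun G _ _ ρ θ hθ => by
    have hΩ : Fintype.card (R ⊕ L) ≤ 2 ^ κ := by simpa using hcard
    obtain ⟨T, hT1, hT2⟩ := propG ρ κ hΩ alt5_perfect t θ hθ
    refine ⟨T, hT1, fun x => le_trans (Finset.card_le_card ?_) (hT2 x)⟩
    intro i hi
    simpa using hi) j hj ht u1 u0 h1 h0
  refine ⟨v1, v0, hv1, hv0, h.trans (le_of_eq ?_)⟩
  ring

/-- No small representation separates alive words from dead words. -/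
theorem no_small_rep (κ : ℕ) {R L : Type} [Fintype R] [Fintype L]
    (hcard : Fintype.card R + Fintype.card L ≤ 2 ^ κ) (hκ : 0 < κ)
    (ψ : Letter (Pt (κ + 1) (12 * (κ * (κ + 1)))) → Scat R L) :
    ∃ v1 v0, val v1 = AliveRel 0 ∧ val v0 = DeadRel 0 ∧ sc ψ v1 = sc ψ v0 := by
  have ht : 0 < 12 * (κ * (κ + 1)) := by positivity
  have key : ∀ i : ℕ, i ≤ κ + 1 → ∃ v1 v0 : List (Letter (Pt (κ + 1) (12 * (κ * (κ + 1))))),
      val v1 = AliveRel (κ + 1 - i) ∧ val v0 = DeadRel (κ + 1 - i) ∧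
        2 ^ i * sdist (sc ψ v1) (sc ψ v0) ≤ 2 ^ κ := by
    intro i
    induction i with
    | zero =>
      intro _
      refine ⟨[mkLetter (AliveRel (κ + 1))], [mkLetter (DeadRel (κ + 1))], ?_, ?_, ?_⟩
      · rw [val_mkLetter]; rfl
      · rw [val_mkLetter]; rfl
      · simpa using (sdist_le_card _ _).trans hcard
    | succ i ih =>
      intro hi
      obtain ⟨u1, u0, h1, h0, hd⟩ := ih (by omega)
      have hj : κ + 1 - i = (κ + 1 - (i + 1)) + 1 := by omega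
      rw [hj] at h1 h0
      obtain ⟨v1, v0, hv1, hv0, hv⟩ := step ψ κ hcard (κ + 1 - (i + 1)) (by omega) ht u1 u0 h1 h0
      refine ⟨v1, v0, hv1, hv0, ?_⟩
      have h2 : 2 * sdist (sc ψ v1) (sc ψ v0) ≤ sdist (sc ψ u1) (sc ψ u0) := by
        have h3 : 6 * (κ * (κ + 1)) * (2 * sdist (sc ψ v1) (sc ψ v0)) ≤
            6 * (κ * (κ + 1)) * sdist (sc ψ u1) (sc ψ u0) := by
          calc 6 * (κ * (κ + 1)) * (2 * sdist (sc ψ v1) (sc ψ v0))
              = 12 * (κ * (κ + 1)) * sdist (sc ψ v1) (sc ψ v0) := by ring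
            _ ≤ _ := hv
        exact Nat.le_of_mul_le_mul_left h3 (by positivity)
      calc 2 ^ (i + 1) * sdist (sc ψ v1) (sc ψ v0)
          = 2 ^ i * (2 * sdist (sc ψ v1) (sc ψ v0)) := by ring
        _ ≤ 2 ^ i * sdist (sc ψ u1) (sc ψ u0) := Nat.mul_le_mul_left _ h2
        _ ≤ 2 ^ κ := hd
  obtain ⟨v1, v0, h1, h0, hd⟩ := key (κ + 1) le_rfl
  simp only [Nat.sub_self] at h1 h0
  refine ⟨v1, v0, h1, h0, sdist_eq_zero ?_⟩
  by_contra hne
  have h3 : 1 ≤ sdist (sc ψ v1) (sc ψ v0) := Nat.one_le_iff_ne_zero.mpr hne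
  have h4 : 2 ^ (κ + 1) ≤ 2 ^ κ := by
    calc 2 ^ (κ + 1) = 2 ^ (κ + 1) * 1 := by ring
      _ ≤ 2 ^ (κ + 1) * sdist (sc ψ v1) (sc ψ v0) := Nat.mul_le_mul_left _ h3
      _ ≤ 2 ^ κ := hd
  have h5 : 2 ^ κ < 2 ^ (κ + 1) := Nat.pow_lt_pow_right (by norm_num) (by omega)
  omega

end Vale.Agent.P343
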