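import Vale.Agent.P343.Scat

/-!
# P343, module M1c: the product of a list is computed by the fine run
-/

namespace Vale.Agent.P343

namespace Scat

variable {R L : Type}

theorem runL_det {fs : List (Scat R L)} {i : ℕ} {x y : R ⊕ L} (h : RunL fs i x y) :
    ∀ {y' : R ⊕ L}, RunL fs i x y' → y = y' := by
  induction h with
  | @out_left x l f hf h =>
    intro y' h'
    cases h' with
    | out_left hf' h' =>
      rw [hf, Option.some.injEq] at hf'
      subst hf'
      rw [h] at h'
      exact h'
    | step_right hf' hi' h1 h2 =>
      rw [hf, Option.some.injEq] at hf'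
      subst hf'
      rw [h] at h1
      exact absurd h1 (by simp)
    | out_right hf' hi' h1 =>
      rw [hf, Option.some.injEq] at hf'
      subst hf'
      rw [h] at h1
      exact absurd h1 (by simp)
  | @step_left i x y l f hf h h' ih =>
    intro y' h''
    cases h'' with
    | step_left hf' h1 h2 =>
      rw [hf, Option.some.injEq] at hf'
      subst hf'
      rw [h, Sum.inr.injEq] at h1
      subst h1
      exact ih h2
    | step_right hf' hi' h1 h2 =>
      rw [hf, Option.some.injEq] at hf'
      subst hf'
      rw [h] at h1
      exact absurd h1 (by simp)
    | out_right hf' hi' h1 =>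
      rw [hf, Option.some.injEq] at hf'
      subst hf'
      rw [h] at h1
      exact absurd h1 (by simp)
  | @step_right i x y r f hf hi h h' ih =>
    intro y' h''
    cases h'' with
    | out_left hf' h1 =>
      rw [hf, Option.some.injEq] at hf'
      subst hf'
      rw [h] at h1
      exact absurd h1 (by simp)
    | step_left hf' h1 h2 =>
      rw [hf, Option.some.injEq] at hf'
      subst hf'
      rw [h] at h1
      exact absurd h1 (by simp)
    | step_right hf' hi' h1 h2 =>
      rw [hf, Option.some.injEq] at hf'
      subst hf'
      rw [h, Sum.inl.injEq] at h1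
      subst h1
      exact ih h2
    | out_right hf' hi' h1 =>
      omega
  | @out_right i x r f hf hi h =>
    intro y' h''
    cases h'' with
    | out_left hf' h1 =>
      rw [hf, Option.some.injEq] at hf'
      subst hf'
      rw [h] at h1
      exact absurd h1 (by simp)
    | step_left hf' h1 h2 =>
      rw [hf, Option.some.injEq] at hf'
      subst hf'
      rw [h] at h1
      exact absurd h1 (by simp)
    | step_right hf' hi' h1 h2 =>
      omega
    | out_right hf' hi' h1 =>
      rw [hf, Option.some.injEq] at hf'
      subst hf'
      rw [h] at h1
      exact h1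

/-- a run of `gs` that leaves on the right is a run of `f :: gs` -/
theorem runL_cons_right (f : Scat R L) {gs : List (Scat R L)} {i : ℕ} {x y : R ⊕ L}
    (h : RunL gs i x y) : (∀ r, y = Sum.inl r → RunL (f :: gs) (i + 1) x y) ∧
      ∀ l z, y = Sum.inr l → RunL (f :: gs) 0 (Sum.inr l) z → RunL (f :: gs) (i + 1) x z := by
  induction h with
  | @out_left x l g hf h =>
    refine ⟨fun r hr => by simp at hr, ?_⟩
    intro l' z hl' hz
    rw [Sum.inr.injEq] at hl'
    subst hl'
    exact RunL.step_left (by simpa using hf) h hz
  | @step_left i x y l g hf h h' ih =>
    refine ⟨fun r hr => RunL.step_left (by simpa using hf) h (ih.1 r hr), ?_⟩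
    intro l' z hl' hz
    exact RunL.step_left (by simpa using hf) h (ih.2 l' z hl' hz)
  | @step_right i x y r g hf hi h h' ih =>
    refine ⟨fun r' hr => RunL.step_right (by simpa using hf) (by simpa using hi) h (ih.1 r' hr), ?_⟩
    intro l' z hl' hz
    exact RunL.step_right (by simpa using hf) (by simpa using hi) h (ih.2 l' z hl' hz)
  | @out_right i x r g hf hi h =>
    refine ⟨fun r' _ => RunL.out_right (by simpa using hf) (by simpa using hi) h, ?_⟩
    intro l' z hl' hz
    simp at hl'

theorem runL_prod [Finite R] [Finite L] (fs : List (Scat R L)) (hne : fs ≠ []) (x : R ⊕ L) :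
    RunL fs (Sum.elim (fun _ => 0) (fun _ => fs.length - 1) x) x (fs.prod.perm x) := by
  induction fs generalizing x with
  | nil => exact absurd rfl hne
  | cons f gs ih =>
    by_cases hg : gs = []
    · subst hg
      have e : ([f] : List (Scat R L)).prod = f := by simp
      rw [e]
      have hidx : (Sum.elim (fun _ => 0) (fun _ => ([f] : List (Scat R L)).length - 1) x : ℕ) = 0 := by
        cases x <;> rfl
      rw [hidx]
      cases hfx : f.perm x with
      | inl r => exact RunL.out_right (by simp) (by simp) hfx
      | inr l => exact RunL.out_left (by simp) hfx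
    · rw [List.prod_cons]
      have hlen : 0 < gs.length := List.length_pos_iff.mpr hg
      have key : ∀ (b : Bool) (x y : R ⊕ L), Reach f gs.prod b x y →
          RunL (f :: gs) (if b then (Sum.elim (fun _ => 0) (fun _ => gs.length - 1) x : ℕ) + 1 else 0)
            x y := by
        intro b x y h
        induction h with
        | @f_out x l h =>
          exact RunL.out_left (by simp) h
        | @f_step x y r h _ ih' =>
          have ih2 : RunL (f :: gs) (0 + 1) (Sum.inl r) y := ih'
          exact RunL.step_right (f := f) (by simp) (by simpa using hlen) h ih2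
        | @g_out x r h =>
          have h1 := ih hg x
          rw [h] at h1
          exact (runL_cons_right f h1).1 r rfl
        | @g_step x y l h _ ih' =>
          have h1 := ih hg x
          rw [h] at h1
          exact (runL_cons_right f h1).2 l y rfl ih'
      have h2 := key (side x) x _ ((mul_perm_iff f gs.prod x _).mp rfl)
      have hidx : (Sum.elim (fun _ => 0) (fun _ => (f :: gs).length - 1) x : ℕ) =
          (if side x then (Sum.elim (fun _ => 0) (fun _ => gs.length - 1) x : ℕ) + 1 else 0) := by
        cases x with
        | inl r => rfl
        | inr l =>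
          simp only [Sum.elim_inr, List.length_cons, side, if_true]
          omega
      rw [hidx]
      exact h2

/-- The product of a nonempty list is computed by the fine run. -/
theorem prod_perm_iff_run [Finite R] [Finite L] (fs : List (Scat R L)) (hne : fs ≠ []) (x y : R ⊕ L) :
    fs.prod.perm x = y ↔
      RunL fs (Sum.elim (fun _ => 0) (fun _ => fs.length - 1) x) x y := by
  constructor
  · intro h
    rw [← h]
    exact runL_prod fs hne x
  · intro h
    exact runL_det (runL_prod fs hne x) h

/-- The product of a nonempty list is computed by the fine run. -/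
theorem prod_perm_iff [Finite R] [Finite L] (fs : List (Scat R L)) (hne : fs ≠ []) (x y : R ⊕ L) :
    fs.prod.perm x = y ↔
      RunL fs (Sum.elim (fun _ => 0) (fun _ => fs.length - 1) x) x y :=
  prod_perm_iff_run fs hne x y

end Scat

end Vale.Agent.P343
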